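import Vale.Agent.P286.So.Hom
import Vale.Agent.P286.H527.Maps

/-!
# Toeplitz operators on alternating matrices
-/

namespace Vale.Agent.P286.So

open LaurentPolynomial Matrix

noncomputable section

variable {N : ℕ} {A B : Type} [CommRing A] [CommRing B]

/-- Alternating matrices. -/
def IsAl {R : Type} [CommRing R] (M : Matrix (Fin N) (Fin N) R) : Prop :=
  (∀ i, M i i = 0) ∧ ∀ i j, M i j = - M j i

theorem IsAl.conj {R : Type} [CommRing R] {X : Matrix (Fin N) (Fin N) R} (h : IsAl X)
    (g : Matrix (Fin N) (Fin N) R) : IsAl (g * (X * g.transpose)) := by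
  have e : ∀ i j, (g * (X * g.transpose)) i j = ∑ p, ∑ q, g i p * X p q * g j q := by
    intro i j
    rw [Matrix.mul_apply]
    refine Finset.sum_congr rfl fun p _ => ?_
    rw [Matrix.mul_apply, Finset.mul_sum]
    refine Finset.sum_congr rfl fun q _ => ?_
    rw [Matrix.transpose_apply, mul_assoc]
  constructor
  · intro i
    rw [e, ← Finset.sum_product']
    refine Finset.sum_involution (fun x _ => (x.2, x.1)) ?_ ?_ ?_ ?_
    · rintro ⟨p, q⟩ _
      simp only
      rw [h.2 p q]
      ring
    · rintro ⟨p, q⟩ _ hne heq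
      simp only [Prod.mk.injEq] at heq
      apply hne
      simp only
      rw [heq.2, h.1, mul_zero, zero_mul]
    · rintro ⟨p, q⟩ _
      simp
    · rintro ⟨p, q⟩ _
      rfl
  · intro i j
    rw [e, e, Finset.sum_comm, ← Finset.sum_neg_distrib]
    refine Finset.sum_congr rfl fun p _ => ?_
    rw [← Finset.sum_neg_distrib]
    refine Finset.sum_congr rfl fun q _ => ?_
    rw [h.2 q p]
    ring

theorem IsAl.sub {R : Type} [CommRing R] {X Y : Matrix (Fin N) (Fin N) R} (h : IsAl X)
    (h' : IsAl Y) : IsAl (X - Y) := by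
  constructor
  · intro i
    rw [Matrix.sub_apply, h.1, h'.1, sub_zero]
  · intro i j
    rw [Matrix.sub_apply, Matrix.sub_apply, h.2 i j, h'.2 i j]
    ring

theorem isAl_single {R : Type} [CommRing R] (p q : Fin N) (hpq : p ≠ q) (r : R) :
    IsAl (Matrix.single p q r - Matrix.single q p r) := by
  constructor
  · intro i
    rw [Matrix.sub_apply, Matrix.single_apply, Matrix.single_apply, if_neg, if_neg, sub_zero]
    · rintro ⟨h1, h2⟩; exact hpq (h2.trans h1.symm)
    · rintro ⟨h1, h2⟩; exact hpq (h1.trans h2.symm)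
  · intro i j
    simp only [Matrix.sub_apply, Matrix.single_apply, neg_sub, and_comm]

theorem toAlt_eq (x : Jx N →₀ A) :
    toAlt N A x = toMat N A (x.mapDomain (emb N)) - (toMat N A (x.mapDomain (emb N))).transpose := by
  induction x using Finsupp.induction_linear with
  | zero => simp
  | add x y hx hy =>
    rw [map_add, hx, hy, Finsupp.mapDomain_add, map_add, Matrix.transpose_add]
    abel
  | single i a =>
    rw [Finsupp.mapDomain_single, toAlt, toMat, Finsupp.linearCombination_single,
      Finsupp.linearCombination_single, Matrix.transpose_smul, Matrix.transpose_single, ← smul_sub]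
    rfl

theorem isAl_toAlt (x : Jx N →₀ A) : IsAl (toAlt N A x) := by
  rw [toAlt_eq]
  constructor
  · intro i
    rw [Matrix.sub_apply, Matrix.transpose_apply, sub_self]
  · intro i j
    rw [Matrix.sub_apply, Matrix.sub_apply, Matrix.transpose_apply, Matrix.transpose_apply]
    ring

theorem toAlt_MLE (x : Jx N →₀ A) : MLE 0 (toAlt N A x) := by
  rw [toAlt_eq]
  exact (toMat_MLE _).sub fun i j => toMat_MLE _ j i

theorem toAlt_coeff (x : Jx N →₀ A) (i : Jx N) :
    (toAlt N A x i.2.1.1 i.2.1.2).coeff (-(i.1 : ℤ)) = x i := by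
  obtain ⟨l, ⟨⟨p, q⟩, hpq⟩⟩ := i
  rw [toAlt_eq, Matrix.sub_apply, Matrix.transpose_apply, AddMonoidAlgebra.coeff_sub,
    Finsupp.sub_apply]
  simp only
  rw [toMat_coeff, toMat_coeff]
  have h1 : Finsupp.mapDomain (emb N) x (l, p, q) = x (l, ⟨(p, q), hpq⟩) :=
    Finsupp.mapDomain_apply (emb_injective N) x (l, ⟨(p, q), hpq⟩)
  have h2 : Finsupp.mapDomain (emb N) x (l, q, p) = 0 := by
    apply Finsupp.mapDomain_of_notMem_range
    rintro ⟨⟨l', ⟨⟨p', q'⟩, hpq'⟩⟩, h⟩
    simp only [emb, Prod.mk.injEq] at h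
    obtain ⟨-, rfl, rfl⟩ := h
    exact absurd hpq (not_lt.2 hpq'.le)
  rw [h1, h2, sub_zero]

theorem apart_apply (M : Matrix (Fin N) (Fin N) A[T;T⁻¹]) (i : Jx N) :
    apart N A M i = (M i.2.1.1 i.2.1.2).coeff (-(i.1 : ℤ)) := npart_apply M (emb N i)

theorem apart_toAlt (x : Jx N →₀ A) : apart N A (toAlt N A x) = x := by
  ext i
  rw [apart_apply, toAlt_coeff]

theorem sub_toAlt_apart {M : Matrix (Fin N) (Fin N) A[T;T⁻¹]} (h : IsAl M) :
    MGE 1 (M - toAlt N A (apart N A M)) := by
  have key : ∀ (p q : Fin N), p < q → ∀ l : ℕ,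
      ((M - toAlt N A (apart N A M)) p q).coeff (-(l : ℤ)) = 0 := by
    intro p q hpq l
    have := toAlt_coeff (apart N A M) (l, ⟨(p, q), hpq⟩)
    simp only at this
    rw [Matrix.sub_apply, AddMonoidAlgebra.coeff_sub, Finsupp.sub_apply, this, apart_apply, sub_self]
  have hal := h.sub (isAl_toAlt (apart N A M))
  intro p q m hm
  obtain ⟨l, rfl⟩ : ∃ l : ℕ, m = -(l : ℤ) := ⟨m.natAbs, by omega⟩
  rcases lt_trichotomy p q with hpq | hpq | hpq
  · exact key p q hpq l
  · subst hpq
    rw [hal.1]
    simp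
  · rw [hal.2, AddMonoidAlgebra.coeff_neg, Finsupp.neg_apply, key q p hpq l, neg_zero]

theorem toAlt_apart {M : Matrix (Fin N) (Fin N) A[T;T⁻¹]} (h : MLE 0 M) (h' : IsAl M) :
    toAlt N A (apart N A M) = M := by
  have h1 := sub_toAlt_apart h'
  have h2 : MLE 0 (M - toAlt N A (apart N A M)) := h.sub (toAlt_MLE _)
  have h3 : M - toAlt N A (apart N A M) = 0 := by
    ext1 i j
    exact eq_zero_of_LE_GE (h2 i j) (h1 i j) (by norm_num)
  exact (sub_eq_zero.1 h3).symm

theorem apart_eq_zero {M : Matrix (Fin N) (Fin N) A[T;T⁻¹]} (h : MGE 1 M) : apart N A M = 0 := by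
  ext i
  rw [apart_apply]
  exact h _ _ _ (by omega)

theorem altoep_apply (g : Matrix (Fin N) (Fin N) A[T;T⁻¹]) (x : Jx N →₀ A) :
    altoep g x = apart N A (g * (toAlt N A x * g.transpose)) := rfl

theorem altoep_one : altoep (1 : Matrix (Fin N) (Fin N) A[T;T⁻¹]) = 1 := by
  apply LinearMap.ext
  intro x
  rw [altoep_apply, Matrix.transpose_one, one_mul, mul_one, apart_toAlt, Module.End.one_apply]

theorem MGE.tr {k : ℤ} {X : Matrix (Fin N) (Fin N) A[T;T⁻¹]} (h : MGE k X) :
    MGE k X.transpose := fun i j => h j i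

theorem MLE.tr {k : ℤ} {X : Matrix (Fin N) (Fin N) A[T;T⁻¹]} (h : MLE k X) :
    MLE k X.transpose := fun i j => h j i

theorem altoep_pos_mul {a : Matrix (Fin N) (Fin N) A[T;T⁻¹]} (ha : MGE 0 a)
    (g : Matrix (Fin N) (Fin N) A[T;T⁻¹]) : altoep (a * g) = altoep a * altoep g := by
  apply LinearMap.ext
  intro x
  rw [Module.End.mul_apply, altoep_apply, altoep_apply a, altoep_apply g]
  set M := g * (toAlt N A x * g.transpose) with hM
  have hal : IsAl M := (isAl_toAlt x).conj g
  have e : a * g * (toAlt N A x * (a * g).transpose) = a * (M * a.transpose) := by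
    rw [Matrix.transpose_mul, hM]
    simp only [Matrix.mul_assoc]
  rw [e]
  have e2 : a * (M * a.transpose) = a * (toAlt N A (apart N A M) * a.transpose) +
      a * ((M - toAlt N A (apart N A M)) * a.transpose) := by
    rw [← Matrix.mul_add, ← Matrix.add_mul]
    simp
  rw [e2, map_add]
  have h3 : MGE 1 (a * ((M - toAlt N A (apart N A M)) * a.transpose)) := by
    have := ha.mul ((sub_toAlt_apart hal).mul (MGE.tr ha))
    simpa using this
  rw [apart_eq_zero h3, add_zero]

theorem altoep_mul_neg (g : Matrix (Fin N) (Fin N) A[T;T⁻¹])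
    {b : Matrix (Fin N) (Fin N) A[T;T⁻¹]} (hb : MLE 0 b) :
    altoep (g * b) = altoep g * altoep b := by
  apply LinearMap.ext
  intro x
  rw [Module.End.mul_apply, altoep_apply, altoep_apply g, altoep_apply b]
  have h3 : MLE 0 (b * (toAlt N A x * b.transpose)) := by
    have := hb.mul ((toAlt_MLE x).mul (MLE.tr hb))
    simpa using this
  rw [toAlt_apart h3 ((isAl_toAlt x).conj b)]
  congr 1
  rw [Matrix.transpose_mul]
  simp only [Matrix.mul_assoc]

theorem toAlt_single (i : Jx N) :
    toAlt N A (Finsupp.single i 1) =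
      Matrix.single i.2.1.1 i.2.1.2 (T (-(i.1 : ℤ))) -
        Matrix.single i.2.1.2 i.2.1.1 (T (-(i.1 : ℤ))) := by
  rw [toAlt, Finsupp.linearCombination_single, one_smul]

theorem apart_map (f : A →+* B) (M : Matrix (Fin N) (Fin N) A[T;T⁻¹]) :
    apart N B (M.map (lmap f)) = (apart N A M).mapRange f (map_zero f) := by
  ext i
  rw [apart_apply, Finsupp.mapRange_apply, apart_apply, Matrix.map_apply, lmap,
    AddMonoidAlgebra.coeff_mapRingHom]

theorem bc_altoep (f : A →+* B) (g : Matrix (Fin N) (Fin N) A[T;T⁻¹]) :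
    bc f (altoep g) = altoep (mp f g) := by
  refine end_ext_single fun i => ?_
  rw [bc_single, altoep_apply, altoep_apply, ← apart_map, toAlt_single, toAlt_single]
  congr 1
  rw [Matrix.map_mul, Matrix.map_mul]
  have e1 : (g.transpose).map (lmap f) = (mp f g).transpose := rfl
  have e2 : g.map (lmap f) = mp f g := rfl
  rw [e1, e2]
  congr 2
  ext p q
  simp only [Matrix.map_apply, Matrix.sub_apply, Matrix.single_apply, map_sub]
  split_ifs <;> simp [lmap_T]

section Groups

theorem SO.ext' {x y : SO N A} (h : x.m = y.m) : x = y :=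
  Subtype.ext (Subtype.ext h)

theorem SO.m_one : (1 : SO N A).m = 1 := rfl

theorem SO.m_mul (x y : SO N A) : (x * y).m = x.m * y.m := rfl

theorem SO.tr_mul (x : SO N A) : x.m.transpose * x.m = 1 := x.2

theorem SO.mul_tr (x : SO N A) : x.m * x.m.transpose = 1 := mul_eq_one_comm.1 x.tr_mul

theorem SO.m_inv (x : SO N A) : (x⁻¹).m = x.m.transpose := by
  have h1 : x.m * (x⁻¹).m = 1 := by rw [← SO.m_mul, mul_inv_cancel, SO.m_one]
  calc (x⁻¹).m = (x.m.transpose * x.m) * (x⁻¹).m := by rw [SO.tr_mul, Matrix.one_mul]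
    _ = _ := by rw [Matrix.mul_assoc, h1, Matrix.mul_one]

theorem SO.det_m (x : SO N A) : x.m.det = 1 := x.1.2

theorem m_som (f : A →+* B) (x : SO N A) : (som N f x).m = x.m.map f := rfl

/-- An element of `SO_N` from a matrix. -/
def SO.mk' (X : Matrix (Fin N) (Fin N) A) (h : X.det = 1) (h' : X.transpose * X = 1) : SO N A :=
  ⟨⟨X, h⟩, h'⟩

theorem SO.mk'_m (X : Matrix (Fin N) (Fin N) A) (h : X.det = 1) (h' : X.transpose * X = 1) :
    (SO.mk' X h h').m = X := rfl

theorem som_som {D : Type} [CommRing D] (f : A →+* B) (g : B →+* D) (x : SO N A) :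
    som N g (som N f x) = som N (g.comp f) x := rfl

theorem som_id (x : SO N A) : som N (RingHom.id A) x = x := rfl

theorem som_injective (f : A →+* B) (hf : Function.Injective f) :
    Function.Injective (som N f) := by
  intro x y h
  apply SO.ext'
  ext i j
  apply hf
  exact congrFun (congrFun (congrArg SO.m h) i) j

/-- `A[z] → A[z, z⁻¹]` -/
abbrev ringPos (A : Type) [CommRing A] : Polynomial A →+* A[T;T⁻¹] := Polynomial.toLaurent

/-- `A[z⁻¹] → A[z, z⁻¹]` -/
abbrev ringNeg (A : Type) [CommRing A] : Polynomial A →+* A[T;T⁻¹] :=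
  (invert (R := A)).toRingEquiv.toRingHom.comp (Polynomial.toLaurent (R := A))

theorem ringNeg_injective : Function.Injective (ringNeg A) := fun x y h => by
  apply Polynomial.toLaurent_injective
  exact (invert (R := A)).injective h

theorem lmap_comp_neg (f : A →+* B) :
    (lmap f).comp (ringNeg A) = (ringNeg B).comp (Polynomial.mapRingHom f) := by
  apply RingHom.ext
  intro x
  change lmap f (invert (Polynomial.toLaurent x)) =
    invert (Polynomial.toLaurent (Polynomial.mapRingHom f x))
  have h := RingHom.congr_fun (lmap_toLaurent f) x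
  change lmap f (Polynomial.toLaurent x) = Polynomial.toLaurent (Polynomial.mapRingHom f x) at h
  rw [← h]
  ext k
  simp only [lmap, AddMonoidAlgebra.coeff_mapRingHom, invert_apply]

end Groups

end

end Vale.Agent.P286.So
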