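import Vale.Agent.P286.So.BunSt

/-!
# The axioms of a category
-/

namespace Vale.Agent.P286.So

open CategoryTheory

variable {N : ℕ}

theorem BunHom.f_comp {X Y Z : BunObj N} (φ : X ⟶ Y) (ψ : Y ⟶ Z) :
    BunHom.f (φ ≫ ψ) = (BunHom.f ψ).comp (BunHom.f φ) := rfl

theorem BunHom.id_comp' {X Y : BunObj N} (φ : X ⟶ Y) : 𝟙 X ≫ φ = φ := by
  apply BunHom.ext
  · rfl
  · exact cmp_one_right (BunHom.f φ).r (BunHom.a φ)
  · exact cmp_one_right (BunHom.f φ).r (BunHom.b φ)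

theorem BunHom.comp_id' {X Y : BunObj N} (φ : X ⟶ Y) : φ ≫ 𝟙 Y = φ := by
  apply BunHom.ext
  · rfl
  · exact cmp_one_left (BunHom.a φ)
  · exact cmp_one_left (BunHom.b φ)

theorem BunHom.assoc' {W X Y Z : BunObj N} (φ : W ⟶ X) (ψ : X ⟶ Y) (χ : Y ⟶ Z) :
    (φ ≫ ψ) ≫ χ = φ ≫ ψ ≫ χ := by
  apply BunHom.ext
  · have e1 := BunHom.f_comp (φ ≫ ψ) χ
    have e2 := BunHom.f_comp φ (ψ ≫ χ)
    rw [BunHom.f_comp φ ψ] at e1
    rw [BunHom.f_comp ψ χ] at e2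
    exact e1.trans e2.symm
  · exact cmp_assoc' (BunHom.f ψ) (BunHom.f χ) (BunHom.a χ) (BunHom.a ψ) (BunHom.a φ)
  · exact cmp_assoc' (BunHom.f ψ) (BunHom.f χ) (BunHom.b χ) (BunHom.b ψ) (BunHom.b φ)

theorem BGHom.id_comp' {X Y : BGObj N} (φ : X ⟶ Y) : 𝟙 X ≫ φ = φ := by
  apply BGHom.ext
  · rfl
  · exact (congrArg (BGHom.h φ * ·) (map_one (som N _))).trans (mul_one _)

theorem BGHom.comp_id' {X Y : BGObj N} (φ : X ⟶ Y) : φ ≫ 𝟙 Y = φ := by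
  apply BGHom.ext
  · rfl
  · exact one_mul (BGHom.h φ)

theorem BGHom.assoc' {W X Y Z : BGObj N} (φ : W ⟶ X) (ψ : X ⟶ Y) (χ : Y ⟶ Z) :
    (φ ≫ ψ) ≫ χ = φ ≫ ψ ≫ χ := by
  apply BGHom.ext
  · rfl
  · refine (congrArg (BGHom.h χ * ·) (map_mul (som N _) _ _)).trans ?_
    exact (mul_assoc _ _ _).symm

end Vale.Agent.P286.So
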