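import Vale.Agent.P286.So.Alt

/-!
# Lemmas on gluing data
-/

namespace Vale.Agent.P286.So

open CategoryTheory LaurentPolynomial

noncomputable section

variable {N : ℕ} {A B D : Type} [CommRing A] [CommRing B] [CommRing D]

theorem map_pos (f : A →+* B) (a : SO N (Polynomial A)) :
    som N (lmap f) (pos N A a) = pos N B (som N (Polynomial.mapRingHom f) a) := by
  unfold pos
  rw [som_som, som_som, lmap_toLaurent]

theorem map_neg (f : A →+* B) (a : SO N (Polynomial A)) :
    som N (lmap f) (neg N A a) = neg N B (som N (Polynomial.mapRingHom f) a) := by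
  unfold neg
  rw [som_som, som_som]
  exact congrArg (fun h => som N h a) (lmap_comp_neg f)

theorem lmap_id' : lmap (RingHom.id A) = RingHom.id A[T;T⁻¹] := RingHom.ext fun x => lmap_id x

theorem lmap_comp' (f : A →+* B) (g : B →+* D) : (lmap g).comp (lmap f) = lmap (g.comp f) :=
  RingHom.ext fun x => lmap_lmap f g x

theorem som_lmap_id (g : SO N A[T;T⁻¹]) : som N (lmap (RingHom.id A)) g = g := by
  rw [lmap_id']
  rfl

theorem som_lmap_comp (f : A →+* B) (g : B →+* D) (x : SO N A[T;T⁻¹]) :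
    som N (lmap g) (som N (lmap f) x) = som N (lmap (g.comp f)) x := by
  rw [som_som, lmap_comp']

theorem som_poly_id (a : SO N (Polynomial A)) :
    som N (Polynomial.mapRingHom (RingHom.id A)) a = a := by
  rw [Polynomial.mapRingHom_id]
  rfl

theorem som_poly_comp (f : A →+* B) (g : B →+* D) (a : SO N (Polynomial A)) :
    som N (Polynomial.mapRingHom g) (som N (Polynomial.mapRingHom f) a) =
      som N (Polynomial.mapRingHom (g.comp f)) a := by
  rw [som_som, Polynomial.mapRingHom_comp]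

theorem Glue.id (g : SO N A[T;T⁻¹]) : Glue (RingHom.id A) g g 1 1 := by
  apply Glue.mk
  rw [map_one, map_one, one_mul, mul_one, som_lmap_id]

theorem Glue.comp {f : A →+* B} {g : B →+* D} {x : SO N A[T;T⁻¹]} {y : SO N B[T;T⁻¹]}
    {z : SO N D[T;T⁻¹]} {a b : SO N (Polynomial B)} {a' b' : SO N (Polynomial D)}
    (h : Glue f x y a b) (h' : Glue g y z a' b') :
    Glue (g.comp f) x z (cmp g a' a) (cmp g b' b) := by
  have h3 := congrArg (som N (lmap g)) h.eq
  replace h' := h'.eq
  apply Glue.mk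
  rw [cmp_eq, cmp_eq]
  rw [map_mul, map_mul, map_neg, map_pos, som_lmap_comp] at h3
  rw [map_mul, map_mul, ← mul_assoc, h', mul_assoc, h3, mul_assoc]

theorem cmp_one_right (f : A →+* B) (x : SO N (Polynomial B)) : cmp f x 1 = x := by
  rw [cmp_eq, map_one, mul_one]

theorem cmp_one_left (x : SO N (Polynomial A)) : cmp (RingHom.id A) 1 x = x := by
  rw [cmp_eq, one_mul, som_poly_id]

theorem cmp_assoc (f : A →+* B) (g : B →+* D) (x : SO N (Polynomial D)) (y : SO N (Polynomial B))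
    (z : SO N (Polynomial A)) : cmp g x (cmp f y z) = cmp (g.comp f) (cmp g x y) z := by
  rw [cmp_eq, cmp_eq, cmp_eq, cmp_eq, map_mul, som_poly_comp, mul_assoc]

theorem cmp_assoc' {A B D : SmAlg} (f : A.Hm B) (g : B.Hm D) (x : SO N (Polynomial D.R))
    (y : SO N (Polynomial B.R)) (z : SO N (Polynomial A.R)) :
    cmp g.r x (cmp f.r y z) = cmp (SmAlg.Hm.comp g f).r (cmp g.r x y) z := by
  have h : (SmAlg.Hm.comp g f).r = g.r.comp f.r := rfl
  rw [h, cmp_assoc]

theorem BunObj.glue_id (X : BunObj N) :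
    Glue (SmAlg.Hm.id X.A).r X.g X.g (SOp.one N X.A.R) (SOp.one N X.A.R) := Glue.id X.g

theorem BunHom.glue_comp {X Y Z : BunObj N} (φ : BunHom X Y) (ψ : BunHom Y Z) :
    Glue (ψ.f.comp φ.f).r X.g Z.g (cmp ψ.f.r ψ.a φ.a) (cmp ψ.f.r ψ.b φ.b) :=
  Glue.comp φ.glue ψ.glue

theorem BunHom.ext {X Y : BunObj N} {φ ψ : BunHom X Y} (h1 : φ.f = ψ.f)
    (h2 : φ.a = ψ.a) (h3 : φ.b = ψ.b) : φ = ψ := by
  cases φ
  cases ψ
  subst h1 h2 h3
  rfl

end

end Vale.Agent.P286.So
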