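import Vale.Agent.P286.St.TD
import Vale.Agent.P286.So.Bun

/-!
# The test categories of `Bun_{SO_N}(ℙ¹)` with its canonical bundle, and of `BSO_N`
-/

namespace Vale.Agent.P286.So

open CategoryTheory

noncomputable section

/-- The stack `Bun_{SO_N}(ℙ¹)` with its canonical bundle `ω` and the twist `s`, given by its
test objects. -/
def BunSO (N : ℕ) (s : ℂ) : St.TSite where
  C := BunObj N
  A := BunObj.A
  f := BunHom.f
  dl {X Y} φ := delta (BunHom.f φ).r (BunHom.a φ) (BunHom.b φ) X.S Y.S
  cen X := {𝟙 X}
  s := s

/-- The classifying stack of `SO_N` (without twist), given by its test objects. -/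
def BSO (N : ℕ) : St.TSite where
  C := BGObj N
  A := BGObj.A
  f := BGHom.f
  dl _ := 1
  cen X := {𝟙 X}
  s := 0

end

end Vale.Agent.P286.So
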