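import Vale.Agent.P286.So.Test
import Vale.Agent.P286.H527.Eps1

/-!
# Cartesian complexes on `Bun` are determined by their restriction to the trivial bundle
-/

namespace Vale.Agent.P286.So

open CategoryTheory LaurentPolynomial TensorProduct

noncomputable section

variable {N : ℕ}

/-- The transition map to the locus `θ ≠ 0` is a quasi-isomorphism for cartesian complexes. -/
theorem hIso_phi (hN : 3 ≤ N) {s : ℂ}
    (hs : ∀ m : ℤ, m ≠ 0 → ∀ k : ℤ, (k : ℂ) + s * m ≠ 0) {K : TCx (Bun N) s} (hK : Cartesian K)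
    (X : BunObj N) (i j k : ℤ) (hi : i + 1 = j) (hj : j + 1 = k) :
    HIso (K.d X i j) (K.d X j k) (K.d (triv X.lo) i j)
      (K.d (triv X.lo) j k) (K.map (phi hN X) j) := by
  obtain ⟨P, hP, p, hpd, hp, hq⟩ := hK X
  have hNo : IsNoetherianRing X.A.R := Algebra.FiniteType.isNoetherianRing ℂ X.A.R
  have hB : P.HBij X.th := by
    refine MCx.hBij_of_primes P hP X.th fun q hqp hθ => ?_
    obtain ⟨h, hh, lam, hlam, hsum, Y, ρ, U, V, hU, u, hu⟩ := exists_test X q hθ
    have hYa : ∀ (j : ℤ) (z : K.obj j Y), K.Cyc Y j z → K.Bd Y j z :=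
      fun j z hz => acyclic_split hN hs hK Y lam hlam hsum U V hU j z hz
    have hac := acyclic_tens (T := Bun N) (K := K) ρ hYa P p hpd
      (fun i j k hi hj => hq Y ρ i j k hi hj)
    exact ⟨h, hh, Y.A.R, inferInstance,
      Module.compHom Y.A.R ((Bun N).res ρ).toRingHom, u, hu, hac⟩
  exact hIso_of_localization (T := Bun N) (K := K) (phi hN X) X.th
    (isLocalizedModule_lo X.th) P hB p hpd hp
    (fun i j k hi hj => hq (triv X.lo) (phi hN X) i j k hi hj)
    i j k hi hj

theorem eps1_qis (hN : 3 ≤ N) {s : ℂ}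
    (hs : ∀ m : ℤ, m ≠ 0 → ∀ k : ℤ, (k : ℂ) + s * m ≠ 0) (K : TCx (Bun N) s)
    (hK : Cartesian K) :
    qis (Bun N) s ((unitCx (Jfun N s) (Bfun N s) (eps1 hN s)).app K) :=
  fun X i j k hi hj => hIso_phi hN hs hK X i j k hi hj

end

end Vale.Agent.P286.So
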