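import Vale.Agent.P286.So.JFun

/-! Canonical factorisation of `SO_N`-bundles where the Toeplitz operator is invertible. -/

namespace Vale.Agent.P286.So

open LaurentPolynomial Matrix

noncomputable section

variable {N : ℕ} {A B : Type} [CommRing A] [CommRing B]

/-- The underlying element of `GL_N`. -/
def SO.gl (g : SO N A) : Matrix.GeneralLinearGroup (Fin N) A := Matrix.SpecialLinearGroup.toGL g.1

theorem SO.gl_val (g : SO N A) : (g.gl : Matrix (Fin N) (Fin N) A) = g.m := rfl

theorem mp_lmap (f : A →+* B) (g : SO N A[T;T⁻¹]) : (som N (lmap f) g).m = mp f g.m := rfl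

theorem exists_pos (X : Matrix (Fin N) (Fin N) A[T;T⁻¹]) (h : MGE 0 X) (hd : X.det = 1)
    (ho : X.transpose * X = 1) : ∃ a : SO N (Polynomial A), (pos N A a).m = X := by
  obtain ⟨a, ha⟩ := exists_posGL X h hd
  have ha' : (a : Matrix (Fin N) (Fin N) (Polynomial A)).map (Polynomial.toLaurent (R := A)) = X := ha
  refine ⟨⟨a, ?_⟩, ha'⟩
  show (a : Matrix (Fin N) (Fin N) (Polynomial A)).transpose *
    (a : Matrix (Fin N) (Fin N) (Polynomial A)) = 1
  have h2 : Function.Injective ((Polynomial.toLaurent (R := A)).mapMatrix (m := Fin N)) := by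
    intro x y hxy
    ext1 i j
    apply Polynomial.toLaurent_injective
    exact congrFun (congrFun hxy i) j
  apply h2
  rw [map_mul, map_one, ← ho, ← ha']
  rfl

theorem exists_neg (X : Matrix (Fin N) (Fin N) A[T;T⁻¹]) (h : MLE 0 X) (hd : X.det = 1)
    (ho : X.transpose * X = 1) : ∃ a : SO N (Polynomial A), (neg N A a).m = X := by
  obtain ⟨a, ha⟩ := exists_negGL X h hd
  have ha' : (a : Matrix (Fin N) (Fin N) (Polynomial A)).map (ringNeg A) = X := ha
  refine ⟨⟨a, ?_⟩, ha'⟩
  show (a : Matrix (Fin N) (Fin N) (Polynomial A)).transpose *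
    (a : Matrix (Fin N) (Fin N) (Polynomial A)) = 1
  have h2 : Function.Injective ((ringNeg A).mapMatrix (m := Fin N)) := by
    intro x y hxy
    ext1 i j
    apply ringNeg_injective
    exact congrFun (congrFun hxy i) j
  apply h2
  rw [map_mul, map_one, ← ho, ← ha']
  rfl

theorem ev0_m (a : SO N (Polynomial A)) : (ev0 N A a).m = cf 0 (pos N A a).m := by
  ext i j
  show Polynomial.constantCoeff (a.m i j) = (Polynomial.toLaurent (a.m i j)).coeff 0
  rw [LaurentPolynomial.coeff_toLaurent]
  exact (Finsupp.mapDomain_apply (Nat.castEmbedding (R := ℤ)).injective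
    (a.m i j).toFinsupp.coeff 0).symm

/-- The exponents of a bundle with `H⁰(Λ²E(-1)) = 0` vanish. -/
theorem exponents_zero (hN : 3 ≤ N) (l : Fin N → ℤ) (hs : ∑ i, l i = 0)
    (h : ∀ p q, p ≠ q → l p + l q ≤ 0) : l = 0 := by
  classical
  have h1 : ∀ p, l p ≤ 0 := by
    intro p
    have h2 : ∑ q ∈ Finset.univ.erase p, (l p + l q) ≤ 0 :=
      Finset.sum_nonpos fun q hq => h p q (Finset.ne_of_mem_erase hq).symm
    rw [Finset.sum_add_distrib, Finset.sum_const, Finset.card_erase_of_mem (Finset.mem_univ p),
      Finset.card_univ, Fintype.card_fin, nsmul_eq_mul] at h2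
    have h3 := Finset.add_sum_erase Finset.univ l (Finset.mem_univ p)
    rw [hs] at h3
    have h4 : ((N - 1 : ℕ) : ℤ) = (N : ℤ) - 1 := by omega
    rw [h4] at h2
    have h5 : ((N : ℤ) - 2) * l p ≤ 0 := by linarith
    have h6 : (0 : ℤ) < (N : ℤ) - 2 := by omega
    by_contra hcon
    rw [not_le] at hcon
    have := mul_pos h6 hcon
    omega
  funext p
  have h2 := (Finset.sum_eq_zero_iff_of_nonpos (s := Finset.univ) (f := l)
    (fun i _ => h1 i)).1 hs p (Finset.mem_univ p)
  exact h2

/-- Over a field: an orthogonal bundle `E` such that `Λ²E(-1)` has no cohomology is trivial; then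
the left Toeplitz operator is onto. -/
theorem field_case {F : Type} [Field F] (hN : 3 ≤ N) (g : SO N F[T;T⁻¹])
    (hinj : ∀ x, toep g x = 0 → x = 0) : ∀ y, ∃ x, ltoep g.m x = y := by
  have hg0 : (g.gl : Matrix (Fin N) (Fin N) F[T;T⁻¹]).det = T 0 := by
    rw [SO.gl_val, SO.det_m, T_zero]
  obtain ⟨a, b, l, ha, ha1, hb, hb1, hab, hl⟩ := birkhoff
    (g.gl : Matrix (Fin N) (Fin N) F[T;T⁻¹]) g.m.transpose (by rw [SO.gl_val, SO.mul_tr]) hg0
  rw [SO.gl_val] at hab
  have ha' := adjugate_mul_self ha1
  have hb' := adjugate_mul_self hb1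
  have ha'' := self_mul_adjugate ha1
  have hb'' := self_mul_adjugate hb1
  have e1 : g.m = a.adjugate * (mono l * b) := by
    rw [← hab, ← Matrix.mul_assoc, ha', Matrix.one_mul]
  have hle : ∀ p q, p ≠ q → l p + l q ≤ 0 := by
    intro p q hpq
    by_contra hlt
    rw [not_le] at hlt
    set E : Matrix (Fin N) (Fin N) F[T;T⁻¹] := Matrix.single p q 1 - Matrix.single q p 1 with hE
    set X := b.adjugate * (E * b.adjugate.transpose) with hX
    have hEA : IsAl E := isAl_single p q hpq 1
    have hEL : MLE 0 E := by
      intro i j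
      rw [hE, Matrix.sub_apply, Matrix.single_apply, Matrix.single_apply]
      split_ifs <;> first | exact LE.one.sub LE.one | exact LE.one.sub (LE.zero _) |
        exact (LE.zero _).sub LE.one | exact (LE.zero _).sub (LE.zero _)
    have hXA : IsAl X := hEA.conj _
    have hXL : MLE 0 X := by
      have := hb.adjugate.mul (hEL.mul (MLE.tr hb.adjugate))
      simpa using this
    have h1 : toep g (apart N F X) = 0 := by
      change altoep g.m (apart N F X) = 0
      rw [altoep_apply, toAlt_apart hXL hXA]
      have e3 : g.m * (X * g.m.transpose) =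
          a.adjugate * ((mono l * (E * mono l)) * a.adjugate.transpose) := by
        have hm : (mono l : Matrix (Fin N) (Fin N) F[T;T⁻¹]).transpose = mono l := by
          rw [mono, Matrix.diagonal_transpose]
        have hbt : b.adjugate.transpose * b.transpose = 1 := by
          rw [← Matrix.transpose_mul, hb'', Matrix.transpose_one]
        rw [e1, hX, Matrix.transpose_mul, Matrix.transpose_mul, hm]
        calc a.adjugate * (mono l * b) * (b.adjugate * (E * b.adjugate.transpose) *
              (b.transpose * mono l * a.adjugate.transpose)) =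
            a.adjugate * (mono l * (b * b.adjugate) * E * (b.adjugate.transpose * b.transpose) *
              mono l) * a.adjugate.transpose := by
              simp only [Matrix.mul_assoc]
          _ = _ := by rw [hb'', hbt, Matrix.mul_one, Matrix.mul_one]; simp only [Matrix.mul_assoc]
      have e4 : MGE 1 (mono l * (E * mono l)) := by
        intro i j
        rw [mono, Matrix.diagonal_mul, Matrix.mul_diagonal, hE, Matrix.sub_apply,
          Matrix.single_apply, Matrix.single_apply, sub_mul, mul_sub]
        refine GE.sub ?_ ?_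
        · split_ifs with h
          · obtain ⟨rfl, rfl⟩ := h
            rw [one_mul, ← T_add]
            exact (GE.T _).mono (by omega)
          · rw [zero_mul, mul_zero]; exact GE.zero _
        · split_ifs with h
          · obtain ⟨rfl, rfl⟩ := h
            rw [one_mul, ← T_add]
            exact (GE.T _).mono (by omega)
          · rw [zero_mul, mul_zero]; exact GE.zero _
      rw [e3]
      apply apart_eq_zero
      have := ha.adjugate.mul (e4.mul (MGE.tr ha.adjugate))
      simpa using this
    have h2 := hinj _ h1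
    have h3 : X = 0 := by
      rw [← toAlt_apart hXL hXA, h2, map_zero]
    have h4 : E = 0 := by
      have hbt : b.adjugate.transpose * b.transpose = 1 := by
        rw [← Matrix.transpose_mul, hb'', Matrix.transpose_one]
      calc E = (b * b.adjugate) * E * (b.adjugate.transpose * b.transpose) := by
            rw [hb'', hbt, Matrix.one_mul, Matrix.mul_one]
        _ = b * X * b.transpose := by rw [hX]; simp only [Matrix.mul_assoc]
        _ = 0 := by rw [h3, Matrix.mul_zero, Matrix.zero_mul]
    have h5 := congrFun (congrFun h4 p) q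
    rw [hE, Matrix.sub_apply, Matrix.single_apply_same, Matrix.single_apply,
      if_neg (fun h => hpq h.1.symm)] at h5
    simp at h5
  have hlz : l = 0 := exponents_zero hN l hl hle
  intro y
  rw [hlz, mono_zero, Matrix.one_mul] at hab
  set Y := toMat N F y
  refine ⟨npart N F (b.adjugate * toMat N F (npart N F (a * Y))), ?_⟩
  have h6 : MLE 0 (b.adjugate * toMat N F (npart N F (a * Y))) := by
    have := hb.adjugate.mul (toMat_MLE (npart N F (a * Y)))
    simpa using this
  rw [ltoep_apply, toMat_npart h6]
  have e1 : g.m = a.adjugate * b := by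
    rw [← hab, ← Matrix.mul_assoc, ha', Matrix.one_mul]
  have e2 : g.m * (b.adjugate * toMat N F (npart N F (a * Y))) =
      Y - a.adjugate * (a * Y - toMat N F (npart N F (a * Y))) := by
    rw [e1, Matrix.mul_sub, ← Matrix.mul_assoc, Matrix.mul_assoc a.adjugate, hb'', Matrix.mul_one,
      ← Matrix.mul_assoc, ha', Matrix.one_mul]
    abel
  rw [e2, map_sub, npart_toMat, npart_eq_zero, sub_zero]
  have := ha.adjugate.mul (sub_toMat_npart (a * Y))
  simpa using this

/-- Where the Toeplitz operator of `Ad g` is invertible the bundle is trivial, with a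
canonical trivialisation. -/
theorem exists_fact (hN : 3 ≤ N) (g : SO N B[T;T⁻¹]) (hu : IsUnit (toep g)) :
    ∃ a b : SO N (Polynomial B), g * neg N B b = pos N B a ∧ ev0 N B a = 1 := by
  rcases subsingleton_or_nontrivial B with hB | hB
  · refine ⟨1, 1, ?_, ?_⟩
    · apply SO.ext'
      ext i j m
      exact Subsingleton.elim _ _
    · rw [map_one]
  -- residue fields
  have hres : ∀ (F : Type) [Field F] (π : B →+* F), Function.Surjective π →
      ∀ y, ∃ x, ltoep (mp π (g.gl : Matrix (Fin N) (Fin N) B[T;T⁻¹])) x = y := by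
    intro F _ π hπ
    have h1 : IsUnit (toep (som N (lmap π) g)) := by
      rw [← bc_toep]
      exact hu.map (bcHom (Jx N) π)
    refine field_case hN (som N (lmap π) g) ?_
    intro x hx
    obtain ⟨u, hu⟩ := h1
    rw [← hu] at hx
    have : ((u⁻¹ : (Module.End F (Jx N →₀ F))ˣ) : Module.End F (Jx N →₀ F))
        ((u : Module.End F (Jx N →₀ F)) x) = x := LinearMap.congr_fun (Units.inv_mul u) x
    rw [← this, hx, map_zero]
  obtain ⟨x, hx⟩ := surj_ltoep g.gl (fun F _ π hπ => hres F π hπ) (npart N B 1)
  rw [SO.gl_val, ltoep_apply] at hx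
  set Y := toMat N B x with hY
  set X := g.m * Y with hX
  have hYL : MLE 0 Y := toMat_MLE x
  have h1 : MGE 1 (X - 1) := by
    have := sub_toMat_npart X
    rwa [hx, toMat_npart MLE.one] at this
  have hXG : MGE 0 X := by
    have := (h1.mono (show (0 : ℤ) ≤ 1 by norm_num)).add MGE.one
    simpa using this
  have hX0 : cf 0 X = 1 := by
    have := h1.cf_eq (show (0 : ℤ) < 1 by norm_num)
    rw [cf_sub, cf_one, sub_eq_zero] at this
    exact this
  have hdet : X.det = Y.det := by rw [hX, Matrix.det_mul, SO.det_m, one_mul]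
  have hdX : X.det = 1 := by
    have h2 : LE 0 X.det := by rw [hdet]; exact hYL.det.1
    rw [eq_C_of_LE_GE h2 hXG.det.1, hXG.det.2, hX0, Matrix.det_one, map_one]
  have hXY : X.transpose * X = Y.transpose * Y := by
    rw [hX, Matrix.transpose_mul]
    calc Y.transpose * g.m.transpose * (g.m * Y) = Y.transpose * (g.m.transpose * g.m) * Y := by
          simp only [Matrix.mul_assoc]
      _ = _ := by rw [SO.tr_mul, Matrix.mul_one]
  have hXX : X.transpose * X = 1 := by
    have h2 : MGE 0 (X.transpose * X) := by
      have := (MGE.tr hXG).mul hXG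
      simpa using this
    have h3 : MLE 0 (X.transpose * X) := by
      rw [hXY]
      have := (MLE.tr hYL).mul hYL
      simpa using this
    have h4 : cf 0 (X.transpose * X) = 1 := by
      have h5 := (MGE.tr hXG).cf_mul hXG
      have h6 : cf 0 X.transpose = (cf 0 X).transpose := rfl
      rw [add_zero, h6, hX0, Matrix.transpose_one, Matrix.one_mul] at h5
      exact h5
    ext1 i j
    rw [eq_C_of_LE_GE (h3 i j) (h2 i j)]
    have h5 := congrFun (congrFun h4 i) j
    rw [cf_apply] at h5
    rw [h5, Matrix.one_apply, Matrix.one_apply]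
    split_ifs
    · rw [map_one]
    · rw [map_zero]
  obtain ⟨a, ha⟩ := exists_pos X hXG hdX hXX
  obtain ⟨b, hb⟩ := exists_neg Y hYL (by rw [← hdet, hdX]) (by rw [← hXY, hXX])
  refine ⟨a, b, ?_, ?_⟩
  · apply SO.ext'
    rw [SO.m_mul, ha, hb]
  · apply SO.ext'
    rw [ev0_m, ha, hX0, SO.m_one]

end

end Vale.Agent.P286.So
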