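import Vale.Agent.P286.So.Pre

/-!
# The moduli stack of `SO_N`-bundles on the projective line and its canonical bundle

Let `N ≥ 3` and `G = SO_N`, i.e. `G(A) = {x ∈ SL_N(A) : xᵀ x = 1}`.  Étale locally on the base, a
`G`-bundle on `ℙ¹_A` is trivial on the two charts `Spec A[z]`, `Spec A[z⁻¹]`, i.e. it is given by a
transition matrix `g ∈ G(A[z,z⁻¹])`; an isomorphism from the bundle of `g` to the bundle of `g'` is a
pair `a ∈ G(A[z])`, `b ∈ G(A[z⁻¹])` with `g' b = a g`.  So the stack `Bun_G(ℙ¹)` is the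
stackification of the prestack of these data.

The Lie algebra `𝔤 = so_N` consists of the alternating matrices, with the adjoint action
`X ↦ g X g⁻¹ = g X gᵀ`.  The canonical bundle `ω` has the fibre
`det RΓ(ℙ¹, 𝔤_E) = det RΓ(ℙ¹, 𝔤_E(-1))` (as `det Ad = 1`), which is the determinant line of the
Toeplitz operator `toep g : X ↦ (g X g⁻¹)_{≤0}` on `so_N(A[z⁻¹])`.  A generator of this line is given
by an invertible operator `S` such that `S - toep g` has finite rank, and the generators `t_S` of two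
such operators are related by `t_{S'} = fdet (S * S'⁻¹) • t_S` (Fredholm determinant).
-/

namespace Vale.Agent.P286.So

open CategoryTheory LaurentPolynomial

noncomputable section

/-- The group `SO_N(A) = {x ∈ SL_N(A) : xᵀ x = 1}`. -/
def SOr (N : ℕ) (A : Type) [CommRing A] : Subgroup (Matrix.SpecialLinearGroup (Fin N) A) where
  carrier := {x | (x : Matrix (Fin N) (Fin N) A).transpose * (x : Matrix (Fin N) (Fin N) A) = 1}
  one_mem' := by simp
  mul_mem' {x y} hx hy := by
    simp only [Set.mem_ofPred_eq] at *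
    exact so_mul hx hy
  inv_mem' {x} hx := by
    simp only [Set.mem_ofPred_eq] at *
    exact so_inv hx

/-- The group `SO_N(A)`. -/
abbrev SO (N : ℕ) (A : Type) [CommRing A] : Type := SOr N A

/-- The underlying matrix. -/
def SO.m {N : ℕ} {A : Type} [CommRing A] (x : SO N A) : Matrix (Fin N) (Fin N) A := x.1.1

/-- The group `SO_N(A[z])`. -/
abbrev SOp (N : ℕ) (A : Type) [CommRing A] : Type := SO N (Polynomial A)

/-- The group `SO_N(A[z,z⁻¹])`. -/
abbrev SOl (N : ℕ) (A : Type) [CommRing A] : Type := SO N A[T;T⁻¹]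

variable {N : ℕ} {A B : Type} [CommRing A] [CommRing B]

/-- The product in `SO_N(A)`. -/
def SO.mul (x y : SO N A) : SO N A := x * y

/-- The map `SO_N(A) → SO_N(B)` defined by a ring homomorphism `A → B`. -/
def somf (f : A →+* B) (x : SO N A) : SO N B :=
  ⟨⟨x.1.1.map f, det_map_one f x.1.2⟩, tr_map_one f x.2⟩

/-- `SO_N(A[z]) → SO_N(A[z,z⁻¹])` -/
def posf (x : SOp N A) : SOl N A := somf (Polynomial.toLaurent (R := A)) x

/-- `SO_N(A[z⁻¹]) → SO_N(A[z,z⁻¹])`; the variable of the polynomial ring is `z⁻¹`. -/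
def negf (x : SOp N A) : SOl N A :=
  somf ((invert (R := A)).toRingEquiv.toRingHom.comp (Polynomial.toLaurent (R := A))) x

/-- The inverse in `SO_N(A[z])`. -/
def SOp.inv (x : SOp N A) : SOp N A := x⁻¹

/-- The unit of `SO_N(A[z])`. -/
def SOp.one (N : ℕ) (A : Type) [CommRing A] : SOp N A := 1

/-- The basis `(E_{pq} - E_{qp}) z^{-l}`, `p < q`, of `so_N(A[z⁻¹])`, indexed by `(l, (p, q))`. -/
abbrev Jx (N : ℕ) : Type := ℕ × {i : Fin N × Fin N // i.1 < i.2}

/-- The isomorphism of free modules `Jx N →₀ A ≃ so_N(A[z⁻¹])` onto the alternating matrices,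
followed by the inclusion into `M_N(A[z,z⁻¹])`. -/
def toAlt (N : ℕ) (A : Type) [CommRing A] :
    (Jx N →₀ A) →ₗ[A] Matrix (Fin N) (Fin N) A[T;T⁻¹] :=
  Finsupp.linearCombination A fun i : Jx N =>
    Matrix.single i.2.1.1 i.2.1.2 (T (-(i.1 : ℤ))) - Matrix.single i.2.1.2 i.2.1.1 (T (-(i.1 : ℤ)))

/-- The inclusion of index sets. -/
def emb (N : ℕ) (i : Jx N) : Ix N := (i.1, i.2.1)

theorem emb_injective (N : ℕ) : Function.Injective (emb N) := by
  rintro ⟨l, p⟩ ⟨l', p'⟩ h
  simp only [emb, Prod.mk.injEq] at h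
  exact Prod.ext h.1 (Subtype.ext h.2)

/-- The coordinates of the part of nonpositive degree of an alternating Laurent matrix. -/
def apart (N : ℕ) (A : Type) [CommRing A] :
    Matrix (Fin N) (Fin N) A[T;T⁻¹] →ₗ[A] (Jx N →₀ A) :=
  (Finsupp.lcomapDomain (emb N) (emb_injective N)).comp (npart N A)

/-- The Toeplitz operator `X ↦ (g X gᵀ)_{≤ 0}` on the alternating matrices over `A[z⁻¹]`. -/
def altoep (g : Matrix (Fin N) (Fin N) A[T;T⁻¹]) : Module.End A (Jx N →₀ A) :=
  (apart N A).comp ((LinearMap.mulLeft A g).comp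
    ((LinearMap.mulRight A g.transpose).comp (toAlt N A)))

/-- The Toeplitz operator `X ↦ (g X g⁻¹)_{≤ 0}`, `g⁻¹ = gᵀ`, on `so_N(A[z⁻¹])`.  Its kernel and
cokernel are `H⁰` and `H¹` of `so(E)(-1)` on `ℙ¹_A`, where `E` is the bundle with transition
matrix `g`. -/
def toep (g : SOl N A) : Module.End A (Jx N →₀ A) := altoep g.m

/-- operators on `so_N(A[z⁻¹])` -/
abbrev Opr (N : ℕ) (A : Type) [CommRing A] : Type := Module.End A (Jx N →₀ A)

/-- invertible operators -/
abbrev OprU (N : ℕ) (A : Type) [CommRing A] : Type := (Opr N A)ˣ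

/-- `S` is a framing of the determinant line of the Toeplitz operator of `g`. -/
def IsFraming (g : SOl N A) (S : OprU N A) : Prop := FinRank ((S : Opr N A) - toep g)

/-- The pair `(a, b)` is an isomorphism from the bundle `f(g)` to the bundle `g'`. -/
def Glue (f : A →+* B) (g : SOl N A) (g' : SOl N B) (a b : SOp N B) : Prop :=
  SO.mul g' (negf b) = SO.mul (posf a) (somf (lmap f) g)

/-- The composition. -/
def cmp (f : A →+* B) (x : SOp N B) (y : SOp N A) : SOp N B :=
  SO.mul x (somf (Polynomial.mapRingHom f) y)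

/-- The product `p s q u⁻¹`. -/
def mul₄ {E : Type} [Monoid E] (p s q : E) (u : Eˣ) : E := p * s * q * ((u⁻¹ : Eˣ) : E)

/-- The element `δ` with `t_{S'} = δ • (a, b)_* f_* t_S`. -/
def delta (f : A →+* B) (a b : SOp N B) (S : OprU N A) (S' : OprU N B) : B :=
  fdet (mul₄ (toep (posf a)) (bc f (S : Opr N A)) (toep (negf (SOp.inv b))) S')

/-- Test objects of `Bun_{SO_N}(ℙ¹)` with a generator of `ω`. -/
structure BunObj (N : ℕ) : Type 1 where
  A : SmAlg
  /-- the transition matrix -/
  g : SOl N A.R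
  /-- the framing of the determinant line of `RΓ(so(E)(-1))` -/
  S : OprU N A.R
  framing : IsFraming g S

/-- Morphisms of test objects of `Bun_{SO_N}(ℙ¹)`. -/
structure BunHom {N : ℕ} (X Y : BunObj N) : Type where
  f : X.A.Hm Y.A
  a : SOp N Y.A.R
  b : SOp N Y.A.R
  glue : Glue f.r X.g Y.g a b

/-- Test objects of `BSO_N`: the trivial `SO_N`-torsor over a smooth algebra. -/
structure BGObj (N : ℕ) : Type 1 where
  A : SmAlg

/-- The composition. -/
def gcmp (f : A →+* B) (x : SO N B) (y : SO N A) : SO N B := SO.mul x (somf f y)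

/-- Morphisms of test objects of `BSO_N`. -/
@[ext]
structure BGHom {N : ℕ} (X Y : BGObj N) : Type where
  f : X.A.Hm Y.A
  h : SO N Y.A.R

end

end Vale.Agent.P286.So
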