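import Vale.Agent.P286.So.Alt
import Vale.Agent.P286.H211.Torus

/-! The action of a torus on the determinant of cohomology of `Λ²` of a split bundle. -/

namespace Vale.Agent.P286.So

open LaurentPolynomial Matrix

noncomputable section

section Weight

variable {I : Type}

/-- The weight of the commutator of a diagonal operator with a framing of the Toeplitz operator
of a permutation. -/
theorem comm_weight (σ : Equiv.Perm I) (nu : I → ℤ) (F : Finset I)
    (hF0 : ∀ j, j ∉ F → nu j - nu (σ⁻¹ j) = 0) {A : Type} [CommRing A]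
    (S : (Module.End A (I →₀ A))ˣ) (hS : FinRank ((S : Module.End A (I →₀ A)) - permOp A σ)) :
    fdet ((diagOp fun i => (T (nu i) : A[T;T⁻¹])) *
      bc (LaurentPolynomial.C) (S : Module.End A (I →₀ A)) *
      (diagOp fun i => (T (-nu i) : A[T;T⁻¹])) *
      (((Units.map (bcHom I (LaurentPolynomial.C : A →+* A[T;T⁻¹])) S)⁻¹ :
        (Module.End A[T;T⁻¹] (I →₀ A[T;T⁻¹]))ˣ) : Module.End A[T;T⁻¹] (I →₀ A[T;T⁻¹]))) =
      T (∑ j ∈ F, (nu j - nu (σ⁻¹ j))) := by
  classical
  set ι : A →+* A[T;T⁻¹] := LaurentPolynomial.C with hι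
  let e : I → ℤ := fun j => nu j - nu (σ⁻¹ j)
  let d : I → A[T;T⁻¹] := fun i => T (nu i)
  let d' : I → A[T;T⁻¹] := fun i => T (-nu i)
  have hdd' : d * d' = 1 := by
    ext1 i
    simp only [Pi.mul_apply, d, d', ← T_add, add_neg_cancel, T_zero, Pi.one_apply]
  have hd'd : d' * d = 1 := by rw [mul_comm, hdd']
  let Du : (Module.End A[T;T⁻¹] (I →₀ A[T;T⁻¹]))ˣ :=
    ⟨diagOp d, diagOp d', by rw [diagOp_mul, hdd', diagOp_one], by rw [diagOp_mul, hd'd, diagOp_one]⟩
  let P : (Module.End A (I →₀ A))ˣ := permU A σ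
  let PR : (Module.End A[T;T⁻¹] (I →₀ A[T;T⁻¹]))ˣ := permU A[T;T⁻¹] σ
  let SR := Units.map (bcHom I ι) S
  have hPR : Units.map (bcHom I ι) P = PR := Units.ext (bc_permOp ι σ)
  -- `U = S P⁻¹`
  let U : (Module.End A (I →₀ A))ˣ := S * P⁻¹
  have hU : FinRank ((U : Module.End A (I →₀ A)) - 1) := by
    have e1 : (U : Module.End A (I →₀ A)) - 1 =
        ((S : Module.End A (I →₀ A)) - (P : Module.End A (I →₀ A))) *
          ((P⁻¹ : (Module.End A (I →₀ A))ˣ) : Module.End A (I →₀ A)) := by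
      refine LinearMap.ext fun x => ?_
      have h : (P : Module.End A (I →₀ A)) (((P⁻¹ : (Module.End A (I →₀ A))ˣ) : Module.End A (I →₀ A)) x) = x :=
        LinearMap.congr_fun (Units.mul_inv P) x
      rw [LinearMap.sub_apply, Module.End.mul_apply, LinearMap.sub_apply, h, Module.End.one_apply]
      rfl
    rw [e1]
    exact FinRank.mul_right hS _
  let UR := Units.map (bcHom I ι) U
  have hUR : FinRank ((UR : Module.End A[T;T⁻¹] (I →₀ A[T;T⁻¹])) - 1) := FinRank.bc_sub_one ι hU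
  have hSU : SR = UR * PR := by
    rw [← hPR]
    simp only [SR, UR, U]
    rw [← map_mul, inv_mul_cancel_right]
  -- the commutator
  have hcomm : diagOp d * bc ι (S : Module.End A (I →₀ A)) * diagOp d' *
      ((SR⁻¹ : (Module.End A[T;T⁻¹] (I →₀ A[T;T⁻¹]))ˣ) : Module.End A[T;T⁻¹] (I →₀ A[T;T⁻¹])) =
      ((Du : Module.End A[T;T⁻¹] (I →₀ A[T;T⁻¹])) * (UR : Module.End A[T;T⁻¹] (I →₀ A[T;T⁻¹])) *
        ((Du⁻¹ : (Module.End A[T;T⁻¹] (I →₀ A[T;T⁻¹]))ˣ) : Module.End A[T;T⁻¹] (I →₀ A[T;T⁻¹]))) *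
      (diagOp d * permOp A[T;T⁻¹] σ * diagOp d' * permOp A[T;T⁻¹] σ⁻¹) *
      ((UR⁻¹ : (Module.End A[T;T⁻¹] (I →₀ A[T;T⁻¹]))ˣ) : Module.End A[T;T⁻¹] (I →₀ A[T;T⁻¹])) := by
    have h6 : Du * SR * Du⁻¹ * SR⁻¹ = (Du * UR * Du⁻¹) * (Du * PR * Du⁻¹ * PR⁻¹) * UR⁻¹ := by
      rw [hSU]; group
    have h7 := congrArg (fun u : (Module.End A[T;T⁻¹] (I →₀ A[T;T⁻¹]))ˣ =>
      (u : Module.End A[T;T⁻¹] (I →₀ A[T;T⁻¹]))) h6
    exact h7
  change fdet (diagOp d * bc ι (S : Module.End A (I →₀ A)) * diagOp d' *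
      ((SR⁻¹ : (Module.End A[T;T⁻¹] (I →₀ A[T;T⁻¹]))ˣ) : Module.End A[T;T⁻¹] (I →₀ A[T;T⁻¹]))) = _
  rw [hcomm, comm_diag_perm d d' hdd']
  have hdiag : (fun j => d j * d' (σ⁻¹ j)) = fun j => (T (e j) : A[T;T⁻¹]) := by
    ext1 j
    simp only [d, d', e, ← T_add, sub_eq_add_neg]
  rw [hdiag]
  have hF : ∀ j, j ∉ F → (T (e j) : A[T;T⁻¹]) = 1 := by
    intro j hj
    have h : e j = 0 := hF0 j hj
    rw [h, T_zero]
  obtain ⟨hdf, hdd⟩ := fdet_diagOp (fun j => (T (e j) : A[T;T⁻¹])) F hF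
  have hDU : FinRank (((Du : Module.End A[T;T⁻¹] (I →₀ A[T;T⁻¹])) * (UR : Module.End A[T;T⁻¹] (I →₀ A[T;T⁻¹])) *
        ((Du⁻¹ : (Module.End A[T;T⁻¹] (I →₀ A[T;T⁻¹]))ˣ) : Module.End A[T;T⁻¹] (I →₀ A[T;T⁻¹]))) - 1) := by
    have e1 : ((Du : Module.End A[T;T⁻¹] (I →₀ A[T;T⁻¹])) * (UR : Module.End A[T;T⁻¹] (I →₀ A[T;T⁻¹])) *
        ((Du⁻¹ : (Module.End A[T;T⁻¹] (I →₀ A[T;T⁻¹]))ˣ) : Module.End A[T;T⁻¹] (I →₀ A[T;T⁻¹]))) - 1 =
        ((Du : Module.End A[T;T⁻¹] (I →₀ A[T;T⁻¹])) * ((UR : Module.End A[T;T⁻¹] (I →₀ A[T;T⁻¹])) - 1)) *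
        ((Du⁻¹ : (Module.End A[T;T⁻¹] (I →₀ A[T;T⁻¹]))ˣ) : Module.End A[T;T⁻¹] (I →₀ A[T;T⁻¹])) := by
      refine LinearMap.ext fun x => ?_
      have h : (Du : Module.End A[T;T⁻¹] (I →₀ A[T;T⁻¹])) (((Du⁻¹ : (Module.End A[T;T⁻¹] (I →₀ A[T;T⁻¹]))ˣ) : Module.End A[T;T⁻¹] (I →₀ A[T;T⁻¹])) x) = x :=
        LinearMap.congr_fun (Units.mul_inv Du) x
      simp only [LinearMap.sub_apply, Module.End.mul_apply, Module.End.one_apply, map_sub, h]
    rw [e1]
    exact (hUR.mul_left _).mul_right _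
  have hUi := FinRank.inv_sub_one UR hUR
  rw [fdet_mul (FinRank.mul_sub_one hDU hdf) hUi, fdet_mul hDU hdf, fdet_conj Du hUR, hdd, prod_T]
  have h8 := fdet_mul hUR hUi
  rw [Units.mul_inv, fdet_one] at h8
  calc _ = (fdet (UR : Module.End A[T;T⁻¹] (I →₀ A[T;T⁻¹])) *
      fdet ((UR⁻¹ : (Module.End A[T;T⁻¹] (I →₀ A[T;T⁻¹]))ˣ) : Module.End A[T;T⁻¹] (I →₀ A[T;T⁻¹]))) *
        T (∑ i ∈ F, e i) := by ring
    _ = _ := by rw [← h8, one_mul]

end Weight

section Shift

/-- `{(l, p) : l < f p}` -/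
def below {P : Type} (f : P → ℕ) : Type := {i : ℕ × P // i.1 < f i.2}

/-- `{(l, p) : l < f p}` is a disjoint union of finite sets -/
def belowEquiv {P : Type} (f : P → ℕ) : {i : ℕ × P // i.1 < f i.2} ≃ Σ p : P, Fin (f p) where
  toFun i := ⟨i.1.2, ⟨i.1.1, i.2⟩⟩
  invFun x := ⟨(x.2.1, x.1), x.2.2⟩
  left_inv _ := rfl
  right_inv _ := rfl

theorem exists_kc {P : Type} [Fintype P] (f g : P → ℕ) (h : ∑ p, f p = ∑ p, g p) :
    Nonempty ({i : ℕ × P // i.1 < f i.2} ≃ {i : ℕ × P // i.1 < g i.2}) := by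
  have h1 : Fintype.card (Σ p : P, Fin (f p)) = Fintype.card (Σ p : P, Fin (g p)) := by
    rw [Fintype.card_sigma, Fintype.card_sigma]
    simpa using h
  exact ⟨(belowEquiv f).trans ((Fintype.equivOfCardEq h1).trans (belowEquiv g).symm)⟩

variable {P : Type} (c : P → ℤ)

/-- The shift away from the kernel and the cokernel. -/
def sh : {i : ℕ × P // ¬ i.1 < (c i.2).toNat} ≃ {i : ℕ × P // ¬ i.1 < (-c i.2).toNat} where
  toFun i := ⟨(((i.1.1 : ℤ) - c i.1.2).toNat, i.1.2), by
    have := i.2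
    simp only
    omega⟩
  invFun i := ⟨(((i.1.1 : ℤ) + c i.1.2).toNat, i.1.2), by
    have := i.2
    simp only
    omega⟩
  left_inv i := by
    have := i.2
    apply Subtype.ext
    apply Prod.ext
    · simp only
      omega
    · rfl
  right_inv i := by
    have := i.2
    apply Subtype.ext
    apply Prod.ext
    · simp only
      omega
    · rfl

/-- The permutation, as a map. -/
def sigF (e : {i : ℕ × P // i.1 < (c i.2).toNat} ≃ {i : ℕ × P // i.1 < (-c i.2).toNat})
    (i : ℕ × P) : ℕ × P :=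
  if h : i.1 < (c i.2).toNat then (e ⟨i, h⟩).1 else (sh c ⟨i, h⟩).1

/-- The inverse permutation, as a map. -/
def sigG (e : {i : ℕ × P // i.1 < (c i.2).toNat} ≃ {i : ℕ × P // i.1 < (-c i.2).toNat})
    (i : ℕ × P) : ℕ × P :=
  if h : i.1 < (-c i.2).toNat then (e.symm ⟨i, h⟩).1 else ((sh c).symm ⟨i, h⟩).1

/-- The permutation which is the shift away from the kernel. -/
def sig (e : {i : ℕ × P // i.1 < (c i.2).toNat} ≃ {i : ℕ × P // i.1 < (-c i.2).toNat}) :
    Equiv.Perm (ℕ × P) where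
  toFun := sigF c e
  invFun := sigG c e
  left_inv i := by
    unfold sigF
    split_ifs with h
    · unfold sigG
      rw [dif_pos (e ⟨i, h⟩).2]
      simp
    · unfold sigG
      rw [dif_neg (sh c ⟨i, h⟩).2]
      simp
  right_inv i := by
    unfold sigG
    split_ifs with h
    · unfold sigF
      rw [dif_pos (e.symm ⟨i, h⟩).2]
      simp
    · unfold sigF
      rw [dif_neg ((sh c).symm ⟨i, h⟩).2]
      simp

variable (e : {i : ℕ × P // i.1 < (c i.2).toNat} ≃ {i : ℕ × P // i.1 < (-c i.2).toNat})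

theorem sig_of_not (i : ℕ × P) (h : ¬ i.1 < (c i.2).toNat) :
    sig c e i = (((i.1 : ℤ) - c i.2).toNat, i.2) := by
  show (if h : i.1 < (c i.2).toNat then (e ⟨i, h⟩).1 else (sh c ⟨i, h⟩).1) = _
  rw [dif_neg h]
  rfl

theorem sig_of_mem (i : ℕ × P) (h : i.1 < (c i.2).toNat) :
    (sig c e i).1 < (-c (sig c e i).2).toNat := by
  have h2 : sig c e i = (e ⟨i, h⟩).1 := by
    show (if h : i.1 < (c i.2).toNat then (e ⟨i, h⟩).1 else (sh c ⟨i, h⟩).1) = _
    rw [dif_pos h]
  rw [h2]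
  exact (e ⟨i, h⟩).2

theorem sig_inv_of_not (i : ℕ × P) (h : ¬ i.1 < (-c i.2).toNat) :
    ((sig c e)⁻¹ i).2 = i.2 := by
  have h2 : (sig c e)⁻¹ i = ((sh c).symm ⟨i, h⟩).1 := by
    show (if h : i.1 < (-c i.2).toNat then (e.symm ⟨i, h⟩).1 else ((sh c).symm ⟨i, h⟩).1) = _
    rw [dif_neg h]
  rw [h2]
  rfl

theorem sig_inv_of_mem (i : ℕ × P) (h : i.1 < (-c i.2).toNat) :
    ((sig c e)⁻¹ i).1 < (c ((sig c e)⁻¹ i).2).toNat := by
  have h2 : (sig c e)⁻¹ i = (e.symm ⟨i, h⟩).1 := by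
    show (if h : i.1 < (-c i.2).toNat then (e.symm ⟨i, h⟩).1 else ((sh c).symm ⟨i, h⟩).1) = _
    rw [dif_pos h]
  rw [h2]
  exact (e.symm ⟨i, h⟩).2

end Shift

section Torus

variable {N : ℕ}

/-- the pairs `p < q` -/
abbrev Pr (N : ℕ) : Type := {i : Fin N × Fin N // i.1 < i.2}

theorem sum_pairs (lam : Fin N → ℤ) (h : ∑ i, lam i = 0) :
    ∑ p : Pr N, (lam p.1.1 + lam p.1.2) = 0 := by
  classical
  have h1 : ∑ p : Pr N, (lam p.1.1 + lam p.1.2) =
      ∑ p ∈ Finset.univ.filter (fun i : Fin N × Fin N => i.1 < i.2), (lam p.1 + lam p.2) := by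
    rw [Finset.sum_subtype (Finset.univ.filter (fun i : Fin N × Fin N => i.1 < i.2))
      (p := fun i => i.1 < i.2) (by intro x; simp)]
  have h2 : ∑ p ∈ Finset.univ.filter (fun i : Fin N × Fin N => i.2 < i.1), (lam p.1 + lam p.2) =
      ∑ p ∈ Finset.univ.filter (fun i : Fin N × Fin N => i.1 < i.2), (lam p.1 + lam p.2) := by
    refine Finset.sum_equiv (Equiv.prodComm _ _) ?_ ?_
    · intro i
      simp
    · intro i _
      simp [add_comm]
  have h3 : ∑ p : Fin N × Fin N, (lam p.1 + lam p.2) = 0 := by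
    rw [Fintype.sum_prod_type]
    simp only [Finset.sum_add_distrib, Finset.sum_const, Finset.card_univ, Fintype.card_fin,
      ← Finset.smul_sum, h, smul_zero, add_zero]
  have h4 : ∑ p ∈ Finset.univ.filter (fun i : Fin N × Fin N => i.1 = i.2), (lam p.1 + lam p.2) = 0 := by
    have : ∑ p ∈ Finset.univ.filter (fun i : Fin N × Fin N => i.1 = i.2), (lam p.1 + lam p.2) =
        ∑ i : Fin N, (lam i + lam i) := by
      symm
      refine Finset.sum_bij (fun i _ => (i, i)) ?_ ?_ ?_ ?_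
      · intro i _; simp
      · intro i _ j _ hij; simpa using hij
      · rintro ⟨i, j⟩ hij
        simp only [Finset.mem_filter, Finset.mem_univ, true_and] at hij
        subst hij
        exact ⟨i, Finset.mem_univ _, rfl⟩
      · intro i _; rfl
    rw [this, Finset.sum_add_distrib, h, add_zero]
  have h5 : ∑ p : Fin N × Fin N, (lam p.1 + lam p.2) =
      ∑ p ∈ Finset.univ.filter (fun i : Fin N × Fin N => i.1 < i.2), (lam p.1 + lam p.2) +
      (∑ p ∈ Finset.univ.filter (fun i : Fin N × Fin N => i.1 = i.2), (lam p.1 + lam p.2) +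
      ∑ p ∈ Finset.univ.filter (fun i : Fin N × Fin N => i.2 < i.1), (lam p.1 + lam p.2)) := by
    rw [← Finset.sum_filter_add_sum_filter_not Finset.univ (fun i : Fin N × Fin N => i.1 < i.2)]
    congr 1
    rw [← Finset.sum_filter_add_sum_filter_not (Finset.univ.filter
      (fun i : Fin N × Fin N => ¬ i.1 < i.2)) (fun i : Fin N × Fin N => i.1 = i.2)]
    rw [Finset.filter_filter, Finset.filter_filter]
    congr 1
    · refine Finset.sum_congr (Finset.filter_congr fun x _ => ?_) fun _ _ => rfl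
      constructor
      · rintro ⟨-, h⟩; exact h
      · intro h; exact ⟨by rw [h]; exact lt_irrefl _, h⟩
    · refine Finset.sum_congr (Finset.filter_congr fun x _ => ?_) fun _ _ => rfl
      constructor
      · rintro ⟨h1, h2⟩; exact lt_of_le_of_ne (not_lt.1 h1) (Ne.symm h2)
      · intro h; exact ⟨not_lt.2 h.le, ne_of_gt h⟩
  rw [h3, h4, h2, zero_add] at h5
  rw [h1]
  omega

/-- the weights of `z^λ` on `Λ²` -/
def wt (lam : Fin N → ℤ) (p : Pr N) : ℤ := lam p.1.1 + lam p.1.2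

theorem toNat_sum (lam : Fin N → ℤ) (h : ∑ i, lam i = 0) :
    ∑ p : Pr N, (wt lam p).toNat = ∑ p : Pr N, (-wt lam p).toNat := by
  have h1 := sum_pairs lam h
  have h2 : ∀ p : Pr N, ((wt lam p).toNat : ℤ) - ((-wt lam p).toNat : ℤ) = lam p.1.1 + lam p.1.2 := by
    intro p
    unfold wt
    omega
  have h3 : ∑ p : Pr N, (((wt lam p).toNat : ℤ) - ((-wt lam p).toNat : ℤ)) = 0 := by
    rw [← h1]
    exact Finset.sum_congr rfl fun p _ => h2 p
  rw [Finset.sum_sub_distrib, sub_eq_zero] at h3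
  exact_mod_cast h3

theorem altoep_mono_single (A : Type) [CommRing A] (lam : Fin N → ℤ) (i : Jx N) :
    altoep (mono lam : Matrix (Fin N) (Fin N) A[T;T⁻¹]) (Finsupp.single i 1) =
      if i.1 < (wt lam i.2).toNat then 0 else
        Finsupp.single (((i.1 : ℤ) - wt lam i.2).toNat, i.2) 1 := by
  obtain ⟨l, ⟨⟨p, q⟩, hpq⟩⟩ := i
  rw [altoep_apply, toAlt_single]
  simp only at hpq
  have h3 : (mono lam : Matrix (Fin N) (Fin N) A[T;T⁻¹]) * ((Matrix.single p q (T (-(l : ℤ))) -
      Matrix.single q p (T (-(l : ℤ)))) * (mono lam).transpose) =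
      Matrix.single p q (T (lam p + lam q - l)) - Matrix.single q p (T (lam p + lam q - l)) := by
    ext1 p' q'
    rw [mono, Matrix.diagonal_transpose, Matrix.diagonal_mul, Matrix.mul_diagonal,
      Matrix.sub_apply, Matrix.sub_apply, Matrix.single_apply, Matrix.single_apply,
      Matrix.single_apply, Matrix.single_apply, sub_mul, mul_sub]
    congr 1
    · split_ifs with h
      · obtain ⟨rfl, rfl⟩ := h
        rw [← T_add, ← T_add]
        congr 1
        ring
      · simp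
    · split_ifs with h
      · obtain ⟨rfl, rfl⟩ := h
        rw [← T_add, ← T_add]
        congr 1
        ring
      · simp
  simp only
  rw [h3]
  ext ⟨l', ⟨⟨p', q'⟩, hpq'⟩⟩
  simp only at hpq'
  rw [apart_apply, Matrix.sub_apply, Matrix.single_apply, Matrix.single_apply]
  simp only
  have hno : ¬ (q = p' ∧ p = q') := by
    rintro ⟨rfl, rfl⟩
    exact absurd hpq (not_lt.2 hpq'.le)
  rw [if_neg hno, sub_zero]
  unfold wt
  simp only
  by_cases hpq2 : p = p' ∧ q = q'
  · obtain ⟨rfl, rfl⟩ := hpq2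
    rw [if_pos ⟨rfl, rfl⟩, T_apply]
    by_cases hl : l < (lam p + lam q).toNat
    · rw [if_pos hl, Finsupp.zero_apply, if_neg (by omega)]
    · rw [if_neg hl, Finsupp.single_apply]
      simp only [Prod.mk.injEq, and_true]
      congr 1
      simp only [eq_iff_iff]
      constructor <;> intro h <;> omega
  · rw [if_neg hpq2, AddMonoidAlgebra.coeff_zero, Finsupp.zero_apply]
    split_ifs with hl
    · rfl
    · rw [Finsupp.single_apply, if_neg]
      simp only [Prod.mk.injEq, Subtype.mk.injEq]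
      exact fun h => hpq2 h.2

theorem finRank_perm_sub (A : Type) [CommRing A] (lam : Fin N → ℤ)
    (e : {i : ℕ × Pr N // i.1 < (wt lam i.2).toNat} ≃ {i : ℕ × Pr N // i.1 < (-wt lam i.2).toNat}) :
    FinRank (permOp A (sig (wt lam) e) - altoep (mono lam)) := by
  classical
  obtain ⟨K, hK⟩ : ∃ K : ℕ, ∀ p : Pr N, (-wt lam p).toNat ≤ K :=
    ⟨Finset.univ.sup fun p : Pr N => (-wt lam p).toNat, fun p =>
      Finset.le_sup (f := fun p : Pr N => (-wt lam p).toNat) (Finset.mem_univ p)⟩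
  refine ⟨Finset.range K ×ˢ Finset.univ, fun x i hi => ?_⟩
  have hi' : K ≤ i.1 := by
    by_contra h
    exact hi (by simp; omega)
  induction x using Finsupp.induction_linear with
  | zero => simp
  | add x y hx hy => rw [map_add, Finsupp.add_apply, hx, hy, add_zero]
  | single j a =>
    have h2 : (Finsupp.single j a : Jx N →₀ A) = a • Finsupp.single j 1 := by simp
    rw [h2, map_smul, Finsupp.smul_apply, LinearMap.sub_apply, permOp_single, altoep_mono_single]
    have : ((Finsupp.single (sig (wt lam) e j) 1 : Jx N →₀ A) -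
        (if j.1 < (wt lam j.2).toNat then 0 else
        Finsupp.single (((j.1 : ℤ) - wt lam j.2).toNat, j.2) 1 : Jx N →₀ A)) i = 0 := by
      by_cases h : j.1 < (wt lam j.2).toNat
      · rw [if_pos h, sub_zero, Finsupp.single_apply, if_neg]
        intro heq
        have h1 := sig_of_mem (wt lam) e j h
        rw [heq] at h1
        have := hK i.2
        omega
      · rw [if_neg h, sig_of_not _ _ _ h, sub_self, Finsupp.zero_apply]
    rw [this, smul_zero]

/-- the one-parameter group `t ^ mu` -/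
def tau (A : Type) [CommRing A] (mu : Fin N → ℤ) : Matrix (Fin N) (Fin N) A[T;T⁻¹][T;T⁻¹] :=
  Matrix.diagonal fun i => LaurentPolynomial.C (T (mu i))

theorem altoep_tau (A : Type) [CommRing A] (mu : Fin N → ℤ) :
    altoep (tau A mu) = diagOp fun i : Jx N => (T (wt mu i.2) : A[T;T⁻¹]) := by
  refine end_ext_single fun i => ?_
  obtain ⟨l, ⟨⟨p, q⟩, hpq⟩⟩ := i
  simp only at hpq
  rw [diagOp_single, altoep_apply, toAlt_single]
  have h3 : tau A mu * ((Matrix.single p q (T (-(l : ℤ))) -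
      Matrix.single q p (T (-(l : ℤ)))) * (tau A mu).transpose) =
      Matrix.single p q (LaurentPolynomial.C (T (mu p + mu q)) * T (-(l : ℤ))) -
      Matrix.single q p (LaurentPolynomial.C (T (mu p + mu q)) * T (-(l : ℤ))) := by
    ext1 p' q'
    rw [tau, Matrix.diagonal_transpose, Matrix.diagonal_mul, Matrix.mul_diagonal,
      Matrix.sub_apply, Matrix.sub_apply, Matrix.single_apply, Matrix.single_apply,
      Matrix.single_apply, Matrix.single_apply, sub_mul, mul_sub]
    congr 1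
    · split_ifs with h
      · obtain ⟨rfl, rfl⟩ := h
        rw [T_add, map_mul]
        ring
      · simp
    · split_ifs with h
      · obtain ⟨rfl, rfl⟩ := h
        rw [T_add, map_mul]
        ring
      · simp
  simp only
  rw [h3]
  ext ⟨l', ⟨⟨p', q'⟩, hpq'⟩⟩ : 1
  simp only at hpq'
  rw [apart_apply, Matrix.sub_apply, Matrix.single_apply, Matrix.single_apply, Finsupp.single_apply]
  simp only
  have hno : ¬ (q = p' ∧ p = q') := by
    rintro ⟨rfl, rfl⟩
    exact absurd hpq (not_lt.2 hpq'.le)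
  rw [if_neg hno, sub_zero]
  unfold wt
  by_cases hpq2 : p = p' ∧ q = q'
  · obtain ⟨rfl, rfl⟩ := hpq2
    rw [if_pos ⟨rfl, rfl⟩, ← single_eq_C_mul_T, AddMonoidAlgebra.coeff_single, Finsupp.single_apply]
    simp only [Prod.mk.injEq, and_true]
    congr 1
    simp only [eq_iff_iff]
    constructor <;> intro h <;> omega
  · rw [if_neg hpq2, AddMonoidAlgebra.coeff_zero, Finsupp.zero_apply, if_neg]
    simp only [Prod.mk.injEq, Subtype.mk.injEq]
    exact fun h => hpq2 h.2

theorem exists_pair (hN : 3 ≤ N) (lam : Fin N → ℤ) (h0 : lam ≠ 0) (hs : ∑ i, lam i = 0) :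
    ∃ p : Pr N, 0 < wt lam p * wt (fun i => Int.sign (lam i)) p := by
  classical
  -- a positive and a negative exponent
  obtain ⟨i, hi⟩ : ∃ i, 0 < lam i := by
    by_contra hcon
    push Not at hcon
    apply h0
    funext i
    exact (Finset.sum_eq_zero_iff_of_nonpos (s := Finset.univ) (f := lam)
      (fun i _ => hcon i)).1 hs i (Finset.mem_univ i)
  obtain ⟨j, hj⟩ : ∃ j, lam j < 0 := by
    by_contra hcon
    push Not at hcon
    apply h0
    funext i
    exact (Finset.sum_eq_zero_iff_of_nonneg (s := Finset.univ) (f := lam)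
      (fun i _ => hcon i)).1 hs i (Finset.mem_univ i)
  obtain ⟨k, hki, hkj⟩ : ∃ k : Fin N, k ≠ i ∧ k ≠ j := by
    have h1 : (({i, j} : Finset (Fin N))ᶜ).Nonempty := by
      rw [← Finset.card_pos, Finset.card_compl, Fintype.card_fin]
      have := Finset.card_le_two (a := i) (b := j)
      omega
    obtain ⟨k, hk⟩ := h1
    simp only [Finset.mem_compl, Finset.mem_insert, Finset.mem_singleton, not_or] at hk
    exact ⟨k, hk.1, hk.2⟩
  have key : ∀ a b : Fin N, a ≠ b → 0 < (lam a + lam b) * (Int.sign (lam a) + Int.sign (lam b)) →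
      ∃ p : Pr N, 0 < wt lam p * wt (fun i => Int.sign (lam i)) p := by
    intro a b hab h
    rcases lt_or_gt_of_ne hab with h1 | h1
    · exact ⟨⟨(a, b), h1⟩, h⟩
    · refine ⟨⟨(b, a), h1⟩, ?_⟩
      unfold wt
      simp only
      rw [add_comm (lam b), add_comm (Int.sign (lam b))]
      exact h
  rcases lt_trichotomy (lam k) 0 with h | h | h
  · apply key k j hkj
    rw [Int.sign_eq_neg_one_of_neg h, Int.sign_eq_neg_one_of_neg hj]
    nlinarith
  · apply key k i hki
    rw [h, Int.sign_zero, Int.sign_eq_one_of_pos hi]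
    nlinarith
  · apply key k i hki
    rw [Int.sign_eq_one_of_pos h, Int.sign_eq_one_of_pos hi]
    nlinarith

theorem sign_sum_nonneg (a b : ℤ) (h : 0 < a + b) : 0 ≤ Int.sign a + Int.sign b := by
  rcases lt_trichotomy a 0 with h1 | h1 | h1
  · have h2 : 0 < b := by omega
    rw [Int.sign_eq_neg_one_of_neg h1, Int.sign_eq_one_of_pos h2]
    norm_num
  · have h2 : 0 < b := by omega
    rw [h1, Int.sign_zero, Int.sign_eq_one_of_pos h2]
    norm_num
  · rw [Int.sign_eq_one_of_pos h1]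
    rcases lt_trichotomy b 0 with h2 | h2 | h2
    · rw [Int.sign_eq_neg_one_of_neg h2]; norm_num
    · rw [h2, Int.sign_zero]; norm_num
    · rw [Int.sign_eq_one_of_pos h2]; norm_num

theorem wt_sign_nonneg (lam : Fin N → ℤ) (p : Pr N) (h : 0 < wt lam p) :
    0 ≤ wt (fun i => Int.sign (lam i)) p := sign_sum_nonneg _ _ h

theorem wt_sign_nonpos (lam : Fin N → ℤ) (p : Pr N) (h : wt lam p < 0) :
    wt (fun i => Int.sign (lam i)) p ≤ 0 := by
  have h0 : lam p.1.1 + lam p.1.2 < 0 := h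
  have h1 := sign_sum_nonneg (-lam p.1.1) (-lam p.1.2) (by omega)
  rw [Int.sign_neg, Int.sign_neg] at h1
  show Int.sign (lam p.1.1) + Int.sign (lam p.1.2) ≤ 0
  omega

/-- **The weight of the torus on the determinant of cohomology** of `Λ²` of a nontrivial split
bundle is not zero. -/
theorem torus_weight (hN : 3 ≤ N) (lam : Fin N → ℤ) (h0 : lam ≠ 0) (hs : ∑ i, lam i = 0) :
    ∃ m : ℤ, m ≠ 0 ∧
      ∀ (A : Type) [CommRing A] (S : (Module.End A (Jx N →₀ A))ˣ),
        FinRank ((S : Module.End A (Jx N →₀ A)) - altoep (mono lam)) →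
        fdet (altoep (tau A fun i => Int.sign (lam i)) *
          bc (LaurentPolynomial.C) (S : Module.End A (Jx N →₀ A)) *
          altoep (tau A fun i => - Int.sign (lam i)) *
          (((Units.map (bcHom (Jx N) (LaurentPolynomial.C : A →+* A[T;T⁻¹])) S)⁻¹ :
            (Module.End A[T;T⁻¹] (Jx N →₀ A[T;T⁻¹]))ˣ) :
              Module.End A[T;T⁻¹] (Jx N →₀ A[T;T⁻¹]))) = T m := by
  classical
  obtain ⟨e⟩ := exists_kc (fun p : Pr N => (wt lam p).toNat) (fun p : Pr N => (-wt lam p).toNat)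
    (toNat_sum lam hs)
  let mu : Fin N → ℤ := fun i => Int.sign (lam i)
  let nu : Jx N → ℤ := fun i => wt mu i.2
  obtain ⟨K, hK⟩ : ∃ K : ℕ, ∀ p : Pr N, (-wt lam p).toNat ≤ K :=
    ⟨Finset.univ.sup fun p : Pr N => (-wt lam p).toNat, fun p =>
      Finset.le_sup (f := fun p : Pr N => (-wt lam p).toNat) (Finset.mem_univ p)⟩
  let F : Finset (Jx N) := Finset.range K ×ˢ Finset.univ
  have hmemF : ∀ j : Jx N, j.1 < (-wt lam j.2).toNat → j ∈ F := by
    intro j hj
    have := hK j.2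
    simp only [F, Finset.mem_product, Finset.mem_range, Finset.mem_univ, and_true]
    omega
  have h1 : ∀ j : Jx N, ¬ j.1 < (-wt lam j.2).toNat → nu j - nu ((sig (wt lam) e)⁻¹ j) = 0 := by
    intro j hj
    simp only [nu, sig_inv_of_not (wt lam) e j hj, sub_self]
  have h2 : ∀ j : Jx N, j.1 < (-wt lam j.2).toNat → nu j ≤ 0 ∧ 0 ≤ nu ((sig (wt lam) e)⁻¹ j) := by
    intro j hj
    have h3 := sig_inv_of_mem (wt lam) e j hj
    exact ⟨wt_sign_nonpos lam _ (by omega), wt_sign_nonneg lam _ (by omega)⟩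
  have hle : ∀ j, nu j - nu ((sig (wt lam) e)⁻¹ j) ≤ 0 := by
    intro j
    by_cases hj : j.1 < (-wt lam j.2).toNat
    · have := h2 j hj; omega
    · rw [h1 j hj]
  have hF0 : ∀ j, j ∉ F → nu j - nu ((sig (wt lam) e)⁻¹ j) = 0 := by
    intro j hj
    exact h1 j fun h => hj (hmemF j h)
  refine ⟨∑ j ∈ F, (nu j - nu ((sig (wt lam) e)⁻¹ j)), ?_, ?_⟩
  · obtain ⟨p, hp⟩ := exists_pair hN lam h0 hs
    have hex : ∃ j ∈ F, nu j - nu ((sig (wt lam) e)⁻¹ j) < 0 := by
      rcases lt_trichotomy (wt lam p) 0 with h | h | h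
      · have h3 : wt mu p < 0 := by
          by_contra hcon
          rw [not_lt] at hcon
          have h7 : wt lam p * wt mu p ≤ 0 := mul_nonpos_of_nonpos_of_nonneg h.le hcon
          have h8 : 0 < wt lam p * wt mu p := hp
          omega
        have hj : ((0, p) : Jx N).1 < (-wt lam ((0, p) : Jx N).2).toNat := by
          simp only
          omega
        refine ⟨(0, p), hmemF _ hj, ?_⟩
        have h4 := (h2 _ hj).2
        have h5 : nu (0, p) < 0 := h3
        omega
      · rw [h, zero_mul] at hp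
        exact absurd hp (lt_irrefl _)
      · have h3 : 0 < wt mu p := by
          by_contra hcon
          rw [not_lt] at hcon
          have h7 : wt lam p * wt mu p ≤ 0 := mul_nonpos_of_nonneg_of_nonpos h.le hcon
          have h8 : 0 < wt lam p * wt mu p := hp
          omega
        have hk : ((0, p) : Jx N).1 < (wt lam ((0, p) : Jx N).2).toNat := by
          simp only
          omega
        have hj := sig_of_mem (wt lam) e (0, p) hk
        refine ⟨sig (wt lam) e (0, p), hmemF _ hj, ?_⟩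
        have h4 := (h2 _ hj).1
        have h5 : (sig (wt lam) e)⁻¹ (sig (wt lam) e (0, p)) = (0, p) :=
          (sig (wt lam) e).symm_apply_apply (0, p)
        rw [h5]
        have h6 : 0 < nu (0, p) := h3
        omega
    have hlt : ∑ j ∈ F, (nu j - nu ((sig (wt lam) e)⁻¹ j)) < ∑ j ∈ F, (0 : ℤ) :=
      Finset.sum_lt_sum (fun j _ => hle j) hex
    rw [Finset.sum_const_zero] at hlt
    exact ne_of_lt hlt
  · intro A _ S hS
    have h3 : FinRank ((S : Module.End A (Jx N →₀ A)) - permOp A (sig (wt lam) e)) := by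
      have h5 : ((S : Module.End A (Jx N →₀ A)) - permOp A (sig (wt lam) e)) =
          ((S : Module.End A (Jx N →₀ A)) - altoep (mono lam)) -
            (permOp A (sig (wt lam) e) - altoep (mono lam)) := by
        refine LinearMap.ext fun x => ?_
        simp only [LinearMap.sub_apply]
        abel
      rw [h5]
      exact hS.sub (finRank_perm_sub A lam e)
    have h4 := comm_weight (sig (wt lam) e) nu F hF0 S h3
    rw [altoep_tau, altoep_tau]
    have h6 : (fun i : Jx N => (T (wt (fun i => - Int.sign (lam i)) i.2) : A[T;T⁻¹])) =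
        fun i => T (-nu i) := by
      funext i
      congr 1
      simp only [nu, mu, wt]
      ring
    rw [h6]
    exact h4

end Torus

end

end Vale.Agent.P286.So
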