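import Vale.Agent.P286.So.Fact
import Vale.Agent.P286.So.Torus

/-! Orthogonal splitting of an orthogonal bundle which is split as a vector bundle. -/

namespace Vale.Agent.P286.So

open LaurentPolynomial Matrix

noncomputable section

theorem gs_ring {E : Type} [Ring E] {M W P Z Q D : E} (h1 : P + Z + Q = 1) (hMW : M * W = 1)
    (hWM : W * M = 1) (hQQ : Q * W * Q = 0) (hQZ : Q * W * Z = 0)
    (hZQ : Z * W * Q = 0) (hPQ : P * Q = 0) :
    (1 - D * M * Q * W * P) * M * (1 - P * W * Q * M * D) = M - Q * M * D - D * M * Q := by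
  have hP : P = 1 - Z - Q := by rw [← h1]; abel
  have e1 : M * P * W * Q = Q := by
    calc M * P * W * Q = (M * W) * Q - M * (Z * W * Q) - M * (Q * W * Q) := by
          rw [hP]; noncomm_ring
      _ = Q := by rw [hMW, hZQ, hQQ]; noncomm_ring
  have e2 : Q * W * P * M = Q := by
    calc Q * W * P * M = Q * (W * M) - (Q * W * Z) * M - (Q * W * Q) * M := by
          rw [hP]; noncomm_ring
      _ = Q := by rw [hWM, hQZ, hQQ]; noncomm_ring
  calc (1 - D * M * Q * W * P) * M * (1 - P * W * Q * M * D) =
      (1 - D * M * (Q * W * P)) * (M - (M * P * W * Q) * M * D) := by noncomm_ring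
    _ = (1 - D * M * (Q * W * P)) * (M - Q * M * D) := by rw [e1]
    _ = M - Q * M * D - D * M * (Q * W * P * M) + D * M * Q * W * (P * Q) * M * D := by
        noncomm_ring
    _ = M - Q * M * D - D * M * Q := by rw [e2, hPQ]; noncomm_ring

variable {N : ℕ} {B : Type} [CommRing B]

theorem diag_comm {R : Type} [CommRing R] (d e : Fin N → R) :
    Matrix.diagonal d * Matrix.diagonal e = Matrix.diagonal e * Matrix.diagonal d := by
  rw [Matrix.diagonal_mul_diagonal, Matrix.diagonal_mul_diagonal]
  congr 1
  funext i
  exact mul_comm _ _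

theorem MGE.diag (c : Fin N → B) :
    MGE 0 (Matrix.diagonal fun i => (LaurentPolynomial.C (c i) : B[T;T⁻¹])) := by
  intro i j
  rw [Matrix.diagonal_apply]
  split_ifs
  · exact GE.C _
  · exact GE.zero _

theorem MLE.diag (c : Fin N → B) :
    MLE 0 (Matrix.diagonal fun i => (LaurentPolynomial.C (c i) : B[T;T⁻¹])) := by
  intro i j
  rw [Matrix.diagonal_apply]
  split_ifs
  · exact LE.C _
  · exact LE.zero _

theorem mono_tr (l : Fin N → ℤ) :
    (mono l : Matrix (Fin N) (Fin N) B[T;T⁻¹]).transpose = mono l := by
  rw [mono, Matrix.diagonal_transpose]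

/-- A bundle with a symmetric form which is split as a vector bundle is the orthogonal sum of its
parts of positive and negative slopes and of its part of slope zero. -/
theorem gram_schmidt (half : B) (hh : half + half = 1) (l : Fin N → ℤ)
    (X Y : Matrix (Fin N) (Fin N) B[T;T⁻¹]) (g : SO N B[T;T⁻¹]) (hX : MGE 0 X) (hX1 : X.det = 1)
    (hY : MLE 0 Y) (hY1 : Y.det = 1) (hg : g.m * Y = X * mono l) :
    ∃ X' Y' : Matrix (Fin N) (Fin N) B[T;T⁻¹], MGE 0 X' ∧ X'.det = 1 ∧ MLE 0 Y' ∧ Y'.det = 1 ∧
      g.m * Y' = X' * mono l ∧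
      ∀ i j, Int.sign (l i) + Int.sign (l j) ≠ 0 → (X'.transpose * X') i j = 0 := by
  have hXa := adjugate_mul_self hX1
  have hXa' := self_mul_adjugate hX1
  have hYa := adjugate_mul_self hY1
  have hYa' := self_mul_adjugate hY1
  set M := X.transpose * X with hM
  set M' := Y.transpose * Y with hM'
  set W := X.adjugate * X.adjugate.transpose with hW
  set W' := Y.adjugate * Y.adjugate.transpose with hW'
  have hMM : M' = mono l * M * mono l := by
    calc M' = Y.transpose * (g.m.transpose * g.m) * Y := by
          rw [SO.tr_mul, Matrix.mul_one]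
      _ = (g.m * Y).transpose * (g.m * Y) := by
          rw [Matrix.transpose_mul]; simp only [Matrix.mul_assoc]
      _ = mono l * M * mono l := by
          rw [hg, Matrix.transpose_mul, mono_tr, hM]; simp only [Matrix.mul_assoc]
  have hMW : M * W = 1 := by
    calc M * W = X.transpose * (X * X.adjugate) * X.adjugate.transpose := by
          rw [hM, hW]; simp only [Matrix.mul_assoc]
      _ = (X.adjugate * X).transpose := by rw [hXa', Matrix.mul_one, Matrix.transpose_mul]
      _ = 1 := by rw [hXa, Matrix.transpose_one]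
  have hWM : W * M = 1 := mul_eq_one_comm.1 hMW
  have hMW' : M' * W' = 1 := by
    calc M' * W' = Y.transpose * (Y * Y.adjugate) * Y.adjugate.transpose := by
          rw [hM', hW']; simp only [Matrix.mul_assoc]
      _ = (Y.adjugate * Y).transpose := by rw [hYa', Matrix.mul_one, Matrix.transpose_mul]
      _ = 1 := by rw [hYa, Matrix.transpose_one]
  have hWM' : W' * M' = 1 := mul_eq_one_comm.1 hMW'
  have hm1 : (mono l : Matrix (Fin N) (Fin N) B[T;T⁻¹]) * mono (-l) = 1 := mono_mul_neg l
  have hm2 : (mono (-l) : Matrix (Fin N) (Fin N) B[T;T⁻¹]) * mono l = 1 := mono_neg_mul l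
  have hWW : W = mono l * W' * mono l := by
    have h1 : (mono l * W' * mono l) * M = 1 := by
      calc (mono l * W' * mono l) * M = mono l * (W' * (mono l * M * mono l)) * mono (-l) := by
            simp only [Matrix.mul_assoc]
            rw [hm1, Matrix.mul_one]
        _ = 1 := by rw [← hMM, hWM', Matrix.mul_one, hm1]
    calc W = ((mono l * W' * mono l) * M) * W := by rw [h1, Matrix.one_mul]
      _ = (mono l * W' * mono l) * (M * W) := by rw [Matrix.mul_assoc]
      _ = _ := by rw [hMW, Matrix.mul_one]
  have hMG : MGE 0 M := by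
    have := (MGE.tr hX).mul hX
    simpa using this
  have hWG : MGE 0 W := by
    have := hX.adjugate.mul (MGE.tr hX.adjugate)
    simpa using this
  have hML' : MLE 0 M' := by
    have := (MLE.tr hY).mul hY
    simpa using this
  have hWL' : MLE 0 W' := by
    have := hY.adjugate.mul (MLE.tr hY.adjugate)
    simpa using this
  -- vanishing of the entries
  have hM0 : ∀ i j, 0 < l i + l j → M i j = 0 := by
    intro i j hij
    have h1 : M' i j = T (l i) * M i j * T (l j) := by
      rw [hMM, mono, Matrix.mul_diagonal, Matrix.diagonal_mul]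
    have h2 : M i j = T (-l i) * M' i j * T (-l j) := by
      rw [h1]
      calc M i j = (T (-l i) * T (l i)) * M i j * (T (l j) * T (-l j)) := by
            rw [← T_add, ← T_add]; simp [T_zero]
        _ = _ := by ring
    have h3 : LE (-l i + 0 + -l j) (M i j) := by
      rw [h2]
      exact ((LE.T _).mul (hML' i j)).mul (LE.T _)
    exact eq_zero_of_LE_GE h3 (hMG i j) (by omega)
  have hW0 : ∀ i j, l i + l j < 0 → W i j = 0 := by
    intro i j hij
    have h1 : W i j = T (l i) * W' i j * T (l j) := by
      rw [hWW, mono, Matrix.mul_diagonal, Matrix.diagonal_mul]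
    have h3 : LE (l i + 0 + l j) (W i j) := by
      rw [h1]
      exact ((LE.T _).mul (hWL' i j)).mul (LE.T _)
    exact eq_zero_of_LE_GE h3 (hWG i j) (by omega)
  -- the projections
  let cP : Fin N → B := fun i => if 0 < l i then 1 else 0
  let cZ : Fin N → B := fun i => if l i = 0 then 1 else 0
  let cQ : Fin N → B := fun i => if l i < 0 then 1 else 0
  let cD : Fin N → B := fun i => if l i = 0 then 1 else if l i < 0 then half else 0
  let dg : (Fin N → B) → Matrix (Fin N) (Fin N) B[T;T⁻¹] := fun c =>
    Matrix.diagonal fun i => LaurentPolynomial.C (c i)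
  have hdg : ∀ c, dg c = Matrix.diagonal fun i => (LaurentPolynomial.C (c i) : B[T;T⁻¹]) :=
    fun _ => rfl
  have hcomm : ∀ c, dg c * mono l = mono l * dg c := fun c => diag_comm _ _
  have hdtr : ∀ c, (dg c).transpose = dg c := fun c => Matrix.diagonal_transpose _
  have hdd : ∀ c c', dg c * dg c' = dg fun i => c i * c' i := by
    intro c c'
    simp only [hdg, Matrix.diagonal_mul_diagonal, map_mul]
  have hz : (dg fun _ => (0 : B)) = 0 := by
    rw [hdg]
    simp
  have hent : ∀ (c c' : Fin N → B) (V : Matrix (Fin N) (Fin N) B[T;T⁻¹]) i j,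
      (dg c * V * dg c') i j = LaurentPolynomial.C (c i) * V i j * LaurentPolynomial.C (c' j) := by
    intro c c' V i j
    rw [hdg, hdg, Matrix.mul_diagonal, Matrix.diagonal_mul]
  have h1 : dg cP + dg cZ + dg cQ = 1 := by
    rw [hdg, hdg, hdg, Matrix.diagonal_add, Matrix.diagonal_add, ← Matrix.diagonal_one]
    congr 1
    funext i
    rw [← map_add, ← map_add, ← map_one (LaurentPolynomial.C : B →+* B[T;T⁻¹])]
    congr 1
    simp only [cP, cZ, cQ]
    rcases lt_trichotomy (l i) 0 with h | h | h
    · rw [if_neg (by omega), if_neg (by omega), if_pos h]; simp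
    · rw [if_neg (by omega), if_pos h, if_neg (by omega)]; simp
    · rw [if_pos h, if_neg (by omega), if_neg (by omega)]; simp
  have hQQ : dg cQ * W * dg cQ = 0 := by
    ext1 i j
    rw [hent, Matrix.zero_apply]
    simp only [cQ]
    by_cases hi : l i < 0
    · by_cases hj : l j < 0
      · rw [hW0 i j (by omega), mul_zero, zero_mul]
      · rw [if_neg hj, map_zero, mul_zero]
    · rw [if_neg hi, map_zero, zero_mul, zero_mul]
  have hQZ : dg cQ * W * dg cZ = 0 := by
    ext1 i j
    rw [hent, Matrix.zero_apply]
    simp only [cQ, cZ]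
    by_cases hi : l i < 0
    · by_cases hj : l j = 0
      · rw [hW0 i j (by omega), mul_zero, zero_mul]
      · rw [if_neg hj, map_zero, mul_zero]
    · rw [if_neg hi, map_zero, zero_mul, zero_mul]
  have hZQ : dg cZ * W * dg cQ = 0 := by
    ext1 i j
    rw [hent, Matrix.zero_apply]
    simp only [cQ, cZ]
    by_cases hi : l i = 0
    · by_cases hj : l j < 0
      · rw [hW0 i j (by omega), mul_zero, zero_mul]
      · rw [if_neg hj, map_zero, mul_zero]
    · rw [if_neg hi, map_zero, zero_mul, zero_mul]
  have hPQ : dg cP * dg cQ = 0 := by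
    rw [hdd, ← hz]
    congr 1
    funext i
    simp only [cP, cQ]
    by_cases hi : 0 < l i
    · rw [if_neg (show ¬ l i < 0 by omega), mul_zero]
    · rw [if_neg hi, zero_mul]
  have hDP : dg cD * dg cP = 0 := by
    rw [hdd, ← hz]
    congr 1
    funext i
    simp only [cD, cP]
    by_cases hi : 0 < l i
    · rw [if_neg (show ¬ l i = 0 by omega), if_neg (show ¬ l i < 0 by omega), zero_mul]
    · rw [if_neg hi, mul_zero]
  set v := 1 - dg cP * W * dg cQ * M * dg cD with hv
  set v' := 1 - dg cP * W' * dg cQ * M' * dg cD with hv'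
  have hvm : v * mono l = mono l * v' := by
    have e1 : dg cP * W * dg cQ * M * dg cD * mono l = mono l * (dg cP * W' * dg cQ * M' * dg cD) := by
      calc dg cP * W * dg cQ * M * dg cD * mono l =
          dg cP * (mono l * W' * mono l) * dg cQ * M * (dg cD * mono l) := by
            rw [← hWW]; simp only [Matrix.mul_assoc]
        _ = (dg cP * mono l) * W' * (mono l * dg cQ) * M * (dg cD * mono l) := by
            simp only [Matrix.mul_assoc]
        _ = (mono l * dg cP) * W' * (dg cQ * mono l) * M * (mono l * dg cD) := by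
            rw [hcomm, hcomm, hcomm]
        _ = mono l * (dg cP * W' * dg cQ * (mono l * M * mono l) * dg cD) := by
            simp only [Matrix.mul_assoc]
        _ = _ := by rw [← hMM]
    rw [hv, hv', Matrix.sub_mul, Matrix.mul_sub, Matrix.one_mul, Matrix.mul_one, e1]
  have hvG : MGE 0 v := by
    have h2 := ((((MGE.diag cP).mul hWG).mul (MGE.diag cQ)).mul hMG).mul (MGE.diag cD)
    have h3 : MGE 0 (dg cP * W * dg cQ * M * dg cD) := by simpa using h2
    exact MGE.one.sub h3
  have hvL : MLE 0 v' := by
    have h2 := ((((MLE.diag cP).mul hWL').mul (MLE.diag cQ)).mul hML').mul (MLE.diag cD)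
    have h3 : MLE 0 (dg cP * W' * dg cQ * M' * dg cD) := by simpa using h2
    exact MLE.one.sub h3
  have hdetv : ∀ (V : Matrix (Fin N) (Fin N) B[T;T⁻¹]), (1 - dg cP * (V * dg cD)).det = 1 := by
    intro V
    rw [Matrix.det_one_sub_mul_comm, Matrix.mul_assoc, hDP, Matrix.mul_zero, sub_zero,
      Matrix.det_one]
  have hv1 : v.det = 1 := by
    have h2 : v = 1 - dg cP * ((W * dg cQ * M) * dg cD) := by
      rw [hv]; simp only [Matrix.mul_assoc]
    rw [h2, hdetv]
  have hv1' : v'.det = 1 := by
    have h2 : v' = 1 - dg cP * ((W' * dg cQ * M') * dg cD) := by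
      rw [hv']; simp only [Matrix.mul_assoc]
    rw [h2, hdetv]
  refine ⟨X * v, Y * v', ?_, ?_, ?_, ?_, ?_, ?_⟩
  · have := hX.mul hvG
    simpa using this
  · rw [Matrix.det_mul, hX1, hv1, one_mul]
  · have := hY.mul hvL
    simpa using this
  · rw [Matrix.det_mul, hY1, hv1', one_mul]
  · rw [← Matrix.mul_assoc, hg, Matrix.mul_assoc, ← hvm, Matrix.mul_assoc]
  · have hMt : M.transpose = M := by
      rw [hM, Matrix.transpose_mul, Matrix.transpose_transpose]
    have hWt : W.transpose = W := by
      rw [hW, Matrix.transpose_mul, Matrix.transpose_transpose]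
    have hvt : v.transpose = 1 - dg cD * M * dg cQ * W * dg cP := by
      rw [hv, Matrix.transpose_sub, Matrix.transpose_one]
      simp only [Matrix.transpose_mul, hdtr, hMt, hWt, Matrix.mul_assoc]
    have e1 : (X * v).transpose * (X * v) = M - dg cQ * M * dg cD - dg cD * M * dg cQ := by
      rw [← gs_ring h1 hMW hWM hQQ hQZ hZQ hPQ, ← hv, ← hvt, Matrix.transpose_mul, hM]
      simp only [Matrix.mul_assoc]
    intro i j hij
    have cQn : ∀ i, l i < 0 → cQ i = 1 := fun i h => if_pos h
    have cQz : ∀ i, ¬ l i < 0 → cQ i = 0 := fun i h => if_neg h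
    have cD0 : ∀ i, l i = 0 → cD i = 1 := fun i h => if_pos h
    have cDn : ∀ i, l i < 0 → cD i = half := fun i h => by
      simp only [cD]
      rw [if_neg (by omega), if_pos h]
    rw [e1, Matrix.sub_apply, Matrix.sub_apply, hent, hent]
    rcases lt_trichotomy (l i) 0 with hi | hi | hi
    · rcases lt_trichotomy (l j) 0 with hj | hj | hj
      · have h5 : (LaurentPolynomial.C half : B[T;T⁻¹]) + LaurentPolynomial.C half = 1 := by
          rw [← map_add, hh, map_one]
        rw [cQn i hi, cQn j hj, cDn i hi, cDn j hj, map_one]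
        linear_combination (-(M i j)) * h5
      · rw [cQn i hi, cQz j (by omega), cDn i hi, cD0 j hj, map_one, map_zero]
        ring
      · exfalso
        apply hij
        rw [Int.sign_eq_neg_one_of_neg hi, Int.sign_eq_one_of_pos hj]
        norm_num
    · rcases lt_trichotomy (l j) 0 with hj | hj | hj
      · rw [cQz i (by omega), cQn j hj, cD0 i hi, cDn j hj, map_one, map_zero]
        ring
      · exfalso
        apply hij
        rw [hi, hj, Int.sign_zero, add_zero]
      · rw [hM0 i j (by omega)]
        ring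
    · rcases lt_trichotomy (l j) 0 with hj | hj | hj
      · exfalso
        apply hij
        rw [Int.sign_eq_one_of_pos hi, Int.sign_eq_neg_one_of_neg hj]
        norm_num
      · rw [hM0 i j (by omega)]
        ring
      · rw [hM0 i j (by omega)]
        ring

end

end Vale.Agent.P286.So
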