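import Vale.Agent.P286.So.Grp

/-!
# The homomorphisms between the groups `SO_N(A)`
-/

namespace Vale.Agent.P286.So

open CategoryTheory LaurentPolynomial

noncomputable section

variable {N : ℕ} {A B D : Type} [CommRing A] [CommRing B] [CommRing D]

/-- The map `SO_N(A) → SO_N(B)` defined by a ring homomorphism `A → B`. -/
def som (N : ℕ) (f : A →+* B) : SO N A →* SO N B where
  toFun := somf f
  map_one' := Subtype.ext (map_one (Matrix.SpecialLinearGroup.map f))
  map_mul' x y := Subtype.ext (map_mul (Matrix.SpecialLinearGroup.map f) x.1 y.1)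

/-- `SO_N(A[z]) → SO_N(A[z,z⁻¹])` -/
def pos (N : ℕ) (A : Type) [CommRing A] : SO N (Polynomial A) →* SO N A[T;T⁻¹] :=
  som N (Polynomial.toLaurent (R := A))

/-- `SO_N(A[z⁻¹]) → SO_N(A[z,z⁻¹])`; the variable of the polynomial ring is `z⁻¹`. -/
def neg (N : ℕ) (A : Type) [CommRing A] : SO N (Polynomial A) →* SO N A[T;T⁻¹] :=
  som N ((invert (R := A)).toRingEquiv.toRingHom.comp (Polynomial.toLaurent (R := A)))

theorem Glue.eq {f : A →+* B} {g : SO N A[T;T⁻¹]} {g' : SO N B[T;T⁻¹]}
    {a b : SO N (Polynomial B)} (h : Glue f g g' a b) :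
    g' * neg N B b = pos N B a * som N (lmap f) g := h

theorem Glue.mk {f : A →+* B} {g : SO N A[T;T⁻¹]} {g' : SO N B[T;T⁻¹]}
    {a b : SO N (Polynomial B)} (h : g' * neg N B b = pos N B a * som N (lmap f) g) :
    Glue f g g' a b := h

theorem cmp_eq (f : A →+* B) (x : SO N (Polynomial B)) (y : SO N (Polynomial A)) :
    cmp f x y = x * som N (Polynomial.mapRingHom f) y := rfl

end

end Vale.Agent.P286.So
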