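import Vale.Agent.P286.So.Sane
import Vale.Agent.P286.H527.BrFin

/-!
# The equivalences at irrational level on the projective line, for `SO_N`
-/

namespace Vale.Agent.P286.So

open CategoryTheory LaurentPolynomial

noncomputable section

/-- The restriction to the trivial bundle is a quasi-equivalence. -/
theorem isQuasiEquiv_J {N : ℕ} (hN : 3 ≤ N) {s : ℂ}
    (hs : ∀ m : ℤ, m ≠ 0 → ∀ k : ℤ, (k : ℂ) + s * m ≠ 0) : IsQuasiEquiv (Jfun N s) :=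
  quasiEquiv_of_inverse (Jfun N s) (Bfun N s) (presCart_J N s) (presCart_B N s)
    (Or.inl ⟨eps1 hN s, fun K hK => eps1_qis hN hs K hK⟩)
    (Or.inl ⟨eps2 N s, fun K _ => eps2_qis N s K⟩)

/-- Irrational twists are not resonant. -/
theorem not_resonant {h : ℕ} (hh : 0 < h) {c : ℂ} (hc : ∀ q : ℚ, c ≠ (q : ℂ)) (m : ℤ)
    (hm : m ≠ 0) (k : ℤ) : (k : ℂ) + ((h : ℂ) - c) / (2 * h) * m ≠ 0 :=
  P286.not_resonant hh hc m hm k

theorem dg_BG {N : ℕ} (hN : 3 ≤ N) {s : ℂ}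
    (hs : ∀ m : ℤ, m ≠ 0 → ∀ k : ℤ, (k : ℂ) + s * m ≠ 0) :
    DGEquivalent (Bun N, s) (BG N, 0) :=
  Relation.EqvGen.rel _ _ ⟨Jfun N s, inferInstance, inferInstance, isQuasiEquiv_J hN hs⟩

/-- `D(ω^s) ≃ D(BSO_N)` on `Bun_{SO_N}(ℙ¹)` for irrational `s`. -/
theorem main {N : ℕ} (hN : 3 ≤ N) {s : ℂ}
    (hs : ∀ m : ℤ, m ≠ 0 → ∀ k : ℤ, (k : ℂ) + s * m ≠ 0) :
    St.DGEquivalent (BunSO N s) (BSO N) := by
  have h := Br.dgEquivalent (dg_BG hN hs)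
  change St.DGEquivalent ((Bun N).toT s) ((BG N).toT 0) at h
  rw [toT_Bun, toT_BG] at h
  exact h

theorem nonzero_Bun (N : ℕ) (s : ℂ) :
    ∃ K : St.Cx (BunSO N s), St.Cx.Cart K ∧ ¬ K.Acyclic :=
  Br.nonzero (cartesian_strBun N s) (not_tAcyclic_strBun N s)

end

end Vale.Agent.P286.So
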