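import Vale.Agent.P286.St.Alg
import Vale.Agent.P286.Loop

/-!
# Orthogonal matrices: closure properties
-/

namespace Vale.Agent.P286.So

open Matrix

variable {N : ℕ} {A B : Type} [CommRing A] [CommRing B]

theorem so_one : ((1 : Matrix.SpecialLinearGroup (Fin N) A) : Matrix (Fin N) (Fin N) A).transpose *
    ((1 : Matrix.SpecialLinearGroup (Fin N) A) : Matrix (Fin N) (Fin N) A) = 1 := by
  simp

theorem so_mul {x y : Matrix.SpecialLinearGroup (Fin N) A}
    (hx : (x : Matrix (Fin N) (Fin N) A).transpose * (x : Matrix (Fin N) (Fin N) A) = 1)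
    (hy : (y : Matrix (Fin N) (Fin N) A).transpose * (y : Matrix (Fin N) (Fin N) A) = 1) :
    ((x * y : Matrix.SpecialLinearGroup (Fin N) A) : Matrix (Fin N) (Fin N) A).transpose *
      ((x * y : Matrix.SpecialLinearGroup (Fin N) A) : Matrix (Fin N) (Fin N) A) = 1 := by
  simp only [Matrix.SpecialLinearGroup.coe_mul, Matrix.transpose_mul]
  calc _ = (y : Matrix (Fin N) (Fin N) A).transpose *
        ((x : Matrix (Fin N) (Fin N) A).transpose * (x : Matrix (Fin N) (Fin N) A)) *
        (y : Matrix (Fin N) (Fin N) A) := by simp only [Matrix.mul_assoc]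
    _ = 1 := by rw [hx, Matrix.mul_one, hy]

theorem so_inv {x : Matrix.SpecialLinearGroup (Fin N) A}
    (hx : (x : Matrix (Fin N) (Fin N) A).transpose * (x : Matrix (Fin N) (Fin N) A) = 1) :
    ((x⁻¹ : Matrix.SpecialLinearGroup (Fin N) A) : Matrix (Fin N) (Fin N) A).transpose *
      ((x⁻¹ : Matrix.SpecialLinearGroup (Fin N) A) : Matrix (Fin N) (Fin N) A) = 1 := by
  have h1 : (x : Matrix (Fin N) (Fin N) A) * ((x⁻¹ : Matrix.SpecialLinearGroup (Fin N) A) :
      Matrix (Fin N) (Fin N) A) = 1 := by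
    rw [← Matrix.SpecialLinearGroup.coe_mul, mul_inv_cancel, Matrix.SpecialLinearGroup.coe_one]
  have h2 : ((x⁻¹ : Matrix.SpecialLinearGroup (Fin N) A) : Matrix (Fin N) (Fin N) A) =
      (x : Matrix (Fin N) (Fin N) A).transpose := by
    calc _ = ((x : Matrix (Fin N) (Fin N) A).transpose * (x : Matrix (Fin N) (Fin N) A)) *
          ((x⁻¹ : Matrix.SpecialLinearGroup (Fin N) A) : Matrix (Fin N) (Fin N) A) := by
            rw [hx, Matrix.one_mul]
      _ = _ := by rw [Matrix.mul_assoc, h1, Matrix.mul_one]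
  rw [h2, Matrix.transpose_transpose, ← h2]
  exact h1

theorem det_map_one (f : A →+* B) {x : Matrix (Fin N) (Fin N) A} (h : x.det = 1) :
    (x.map f).det = 1 := by
  have := f.map_det x
  rw [h, map_one] at this
  exact this.symm

theorem tr_map_one (f : A →+* B) {x : Matrix (Fin N) (Fin N) A} (h : x.transpose * x = 1) :
    (x.map f).transpose * x.map f = 1 := by
  have h := congrArg f.mapMatrix h
  rw [map_mul, map_one] at h
  exact h

end Vale.Agent.P286.So
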