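import Vale.Agent.P286.H527.Pull
import Vale.Agent.P286.So.Split

/-!
# Base change of test objects; the action of a one-parameter group at a split bundle
-/

namespace Vale.Agent.P286.So

open CategoryTheory LaurentPolynomial Matrix

noncomputable section

variable {N : ℕ}

theorem IsFraming.bc {A B : Type} [CommRing A] [CommRing B] (f : A →+* B)
    {g : SO N A[T;T⁻¹]} {S : (Module.End A (Jx N →₀ A))ˣ}
    (h : IsFraming g S) : IsFraming (som N (lmap f) g) (bcU N f S) := by
  have h2 := FinRank.bc f h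
  rw [bc_sub, bc_toep] at h2
  exact h2

/-- Base change of a test object. -/
abbrev BunObj.pull (X : BunObj N) (B : SmAlg) (f : X.A.R →ₐ[ℂ] B.R) : BunObj N where
  A := B
  g := som N (lmap (f : X.A.R →+* B.R)) X.g
  S := bcU N (f : X.A.R →+* B.R) X.S
  framing := X.framing.bc _

/-- The canonical morphism to the base change. -/
def BunObj.pullHom (X : BunObj N) (B : SmAlg) (f : X.A.R →ₐ[ℂ] B.R) : X ⟶ X.pull B f :=
  ({ f := f
     a := 1
     b := 1
     glue := by
      apply Glue.mk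
      rw [map_one, map_one, one_mul, mul_one] } : BunHom X (X.pull B f))

theorem transport_one {A B : Type} [CommRing A] [CommRing B] (f : A →+* B)
    (S : (Module.End A (Jx N →₀ A))ˣ) : transport f 1 1 S = bcU N f S := by
  rw [transport, map_one, map_one, inv_one, one_mul, mul_one]

theorem transport_id {B : Type} [CommRing B]
    (a b : SO N (Polynomial B)) (S : (Module.End B (Jx N →₀ B))ˣ) :
    transport (RingHom.id B) a b S = toepPos N B a * S * (toepNeg N B b)⁻¹ := by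
  rw [transport, bcU_id]

theorem BunObj.pullHom_dl (X : BunObj N) (B : SmAlg) (f : X.A.R →ₐ[ℂ] B.R) :
    (Bun N).dl (X.pullHom B f) = 1 := by
  apply Units.ext
  change fdet ((transport (f : X.A.R →+* B.R) 1 1 X.S * (bcU N (f : X.A.R →+* B.R) X.S)⁻¹ :
      (Module.End B.R (Jx N →₀ B.R))ˣ) : Module.End B.R (Jx N →₀ B.R)) = 1
  rw [transport_one, mul_inv_cancel, Units.val_one, fdet_one]

/-- `X × G_m` -/
abbrev BunObj.gm (X : BunObj N) : BunObj N := X.pull X.A.laurent (Calg X.A.R)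

/-- The condition that `(a, b)` is an automorphism of `X × G_m`. -/
def GmGlue (X : BunObj N) (a b : SO N (Polynomial (X.A.R)[T;T⁻¹])) : Prop :=
  som N (lmap (LaurentPolynomial.C : X.A.R →+* (X.A.R)[T;T⁻¹])) X.g * neg N (X.A.R)[T;T⁻¹] b =
    pos N (X.A.R)[T;T⁻¹] a * som N (lmap (LaurentPolynomial.C : X.A.R →+* (X.A.R)[T;T⁻¹])) X.g

theorem GmGlue.inv {X : BunObj N} {a b : SO N (Polynomial (X.A.R)[T;T⁻¹])} (h : GmGlue X a b) :
    GmGlue X a⁻¹ b⁻¹ := by
  unfold GmGlue at *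
  rw [map_inv, map_inv, mul_inv_eq_iff_eq_mul, mul_assoc, h, inv_mul_cancel_left]

/-- The automorphism of `X × G_m`. -/
def gmSigma (X : BunObj N) (a b : SO N (Polynomial (X.A.R)[T;T⁻¹])) (ht : GmGlue X a b) :
    X.gm ⟶ X.gm :=
  ({ f := AlgHom.id ℂ (X.A.R)[T;T⁻¹]
     a := a
     b := b
     glue := by
      refine ht.trans ?_
      congr 1
      exact (som_lmap_id _).symm } : BunHom X.gm X.gm)

theorem gmSigma_dl (X : BunObj N) (a b : SO N (Polynomial (X.A.R)[T;T⁻¹])) (ht : GmGlue X a b) :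
    (((Bun N).dl (gmSigma X a b ht) : ((X.A.R)[T;T⁻¹])ˣ) : (X.A.R)[T;T⁻¹]) =
      fdet ((toepPos N (X.A.R)[T;T⁻¹] a *
        bcU N (LaurentPolynomial.C : X.A.R →+* (X.A.R)[T;T⁻¹]) X.S *
        (toepNeg N (X.A.R)[T;T⁻¹] b)⁻¹ *
        (bcU N (LaurentPolynomial.C : X.A.R →+* (X.A.R)[T;T⁻¹]) X.S)⁻¹ :
          (Module.End (X.A.R)[T;T⁻¹] (Jx N →₀ (X.A.R)[T;T⁻¹]))ˣ) :
            Module.End (X.A.R)[T;T⁻¹] (Jx N →₀ (X.A.R)[T;T⁻¹])) := by
  change fdet ((transport (RingHom.id (X.A.R)[T;T⁻¹]) a b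
        (bcU N (LaurentPolynomial.C : X.A.R →+* (X.A.R)[T;T⁻¹]) X.S) *
        (bcU N (LaurentPolynomial.C : X.A.R →+* (X.A.R)[T;T⁻¹]) X.S)⁻¹ :
          (Module.End (X.A.R)[T;T⁻¹] (Jx N →₀ (X.A.R)[T;T⁻¹]))ˣ) :
            Module.End (X.A.R)[T;T⁻¹] (Jx N →₀ (X.A.R)[T;T⁻¹])) = _
  rw [transport_id]

theorem gmSigma_finRank (X : BunObj N) (a b : SO N (Polynomial (X.A.R)[T;T⁻¹]))
    (ht : GmGlue X a b) :
    FinRank (((toepPos N (X.A.R)[T;T⁻¹] a *
        bcU N (LaurentPolynomial.C : X.A.R →+* (X.A.R)[T;T⁻¹]) X.S *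
        (toepNeg N (X.A.R)[T;T⁻¹] b)⁻¹ *
        (bcU N (LaurentPolynomial.C : X.A.R →+* (X.A.R)[T;T⁻¹]) X.S)⁻¹ :
          (Module.End (X.A.R)[T;T⁻¹] (Jx N →₀ (X.A.R)[T;T⁻¹]))ˣ) :
            Module.End (X.A.R)[T;T⁻¹] (Jx N →₀ (X.A.R)[T;T⁻¹])) - 1) := by
  have h : FinRank (((transport (RingHom.id (X.A.R)[T;T⁻¹]) a b
        (bcU N (LaurentPolynomial.C : X.A.R →+* (X.A.R)[T;T⁻¹]) X.S) *
        (bcU N (LaurentPolynomial.C : X.A.R →+* (X.A.R)[T;T⁻¹]) X.S)⁻¹ :
          (Module.End (X.A.R)[T;T⁻¹] (Jx N →₀ (X.A.R)[T;T⁻¹]))ˣ) :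
            Module.End (X.A.R)[T;T⁻¹] (Jx N →₀ (X.A.R)[T;T⁻¹])) - 1) :=
    BunHom.finRank (gmSigma X a b ht)
  rwa [transport_id] at h

/-- The one-parameter group of automorphisms. -/
def gmData (X : BunObj N) (a b : SO N (Polynomial (X.A.R)[T;T⁻¹])) (ht : GmGlue X a b) (m : ℤ)
    (hm : (((Bun N).dl (gmSigma X a b ht) : ((X.A.R)[T;T⁻¹])ˣ) : (X.A.R)[T;T⁻¹]) = T m) :
    GmData (Bun N) X X.gm where
  ι := X.pullHom X.A.laurent (Calg X.A.R)
  e k := (T k : (X.A.R)[T;T⁻¹])
  E := laurentEquiv X.A.R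
  hE k := laurentEquiv_single X.A.R k
  e_zero := T_zero
  v := eulerD X.A.R
  v_res a := eulerD_C X.A.R a
  v_e k := eulerD_T X.A.R k
  v_dl := by
    rw [BunObj.pullHom_dl, Units.val_one]
    exact Derivation.map_one_eq_zero (eulerD X.A.R)
  σ := gmSigma X a b ht
  res_σ := rfl
  c := m
  v_dlσ := by
    have h := eulerD_T X.A.R m
    rw [hm, map_intCast]
    exact h

theorem gmSigma_comp (X : BunObj N) (a b a' b' : SO N (Polynomial (X.A.R)[T;T⁻¹]))
    (ht) (ht') (haa : a' * a = 1) (hbb : b' * b = 1) :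
    gmSigma X a b ht ≫ gmSigma X a' b' ht' = 𝟙 X.gm := by
  have ha : a' * som N (Polynomial.mapRingHom (RingHom.id (X.A.R)[T;T⁻¹])) a = 1 := by
    rw [som_poly_id, haa]
  have hb : b' * som N (Polynomial.mapRingHom (RingHom.id (X.A.R)[T;T⁻¹])) b = 1 := by
    rw [som_poly_id, hbb]
  apply BunHom.ext
  · rfl
  · exact ha
  · exact hb

/-- Equivariance for a torus without resonance forces acyclicity. -/
theorem acyclic_of_torus {s : ℂ} {K : TCx (Bun N) s} (hK : Cartesian K) (X : BunObj N)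
    (a b : SO N (Polynomial (X.A.R)[T;T⁻¹])) (ht : GmGlue X a b) (m : ℤ)
    (hm : (((Bun N).dl (gmSigma X a b ht) : ((X.A.R)[T;T⁻¹])ˣ) : (X.A.R)[T;T⁻¹]) = T m)
    (hs : ∀ k : ℤ, (k : ℂ) + s * m ≠ 0) (j : ℤ) (z : K.obj j X) (hz : K.Cyc X j z) :
    K.Bd X j z :=
  (gmData X a b ht m hm).acyclic hK (gmSigma X a⁻¹ b⁻¹ ht.inv)
    (gmSigma_comp X a b a⁻¹ b⁻¹ ht ht.inv (inv_mul_cancel a) (inv_mul_cancel b)) hs j z hz

/-- A nontrivial split bundle, with a splitting adapted to the quadratic form. -/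
structure SplitData {B : Type} [CommRing B] (g : SO N B[T;T⁻¹]) (lam : Fin N → ℤ)
    (X Y : Matrix (Fin N) (Fin N) B[T;T⁻¹]) : Prop where
  hX : MGE 0 X
  hX1 : X.det = 1
  hY : MLE 0 Y
  hY1 : Y.det = 1
  hg : g.m * Y = X * mono lam
  ort : ∀ i j, Int.sign (lam i) + Int.sign (lam j) ≠ 0 → (X.transpose * X) i j = 0

section

variable {B : Type} [CommRing B]

theorem MGE.tau (mu : Fin N → ℤ) : MGE 0 (tau B mu) := fun i j => MGE.diag (fun i => T (mu i)) i j

theorem MLE.tau (mu : Fin N → ℤ) : MLE 0 (tau B mu) := fun i j => MLE.diag (fun i => T (mu i)) i j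

theorem tau_mul_neg (mu : Fin N → ℤ) : tau B mu * tau B (-mu) = 1 := by
  rw [tau, tau, Matrix.diagonal_mul_diagonal, ← Matrix.diagonal_one]
  congr 1
  funext i
  rw [← map_mul, ← T_add, Pi.neg_apply, add_neg_cancel, T_zero, map_one]

theorem tau_neg_mul (mu : Fin N → ℤ) : tau B (-mu) * tau B mu = 1 :=
  mul_eq_one_comm.1 (tau_mul_neg mu)

theorem tau_comm_mono (mu lam : Fin N → ℤ) : tau B mu * mono lam = mono lam * tau B mu :=
  diag_comm _ _

theorem tau_tr (mu : Fin N → ℤ) : (tau B mu).transpose = tau B mu := Matrix.diagonal_transpose _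

theorem det_tau (mu : Fin N → ℤ) : (tau B mu).det = LaurentPolynomial.C (T (∑ i, mu i)) := by
  rw [tau, Matrix.det_diagonal, ← map_prod, prod_T]

variable {g : SO N B[T;T⁻¹]} {lam : Fin N → ℤ} {X Y : Matrix (Fin N) (Fin N) B[T;T⁻¹]}

/-- base change along `B → B[t, t⁻¹]` -/
abbrev up (X : Matrix (Fin N) (Fin N) B[T;T⁻¹]) : Matrix (Fin N) (Fin N) B[T;T⁻¹][T;T⁻¹] :=
  mp (LaurentPolynomial.C : B →+* B[T;T⁻¹]) X

theorem SplitData.tau_ort (h : SplitData g lam X Y) :
    tau B (fun i => Int.sign (lam i)) * ((up X).transpose * up X) *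
      tau B (fun i => Int.sign (lam i)) = (up X).transpose * up X := by
  have h1 : (up X).transpose * up X = up (X.transpose * X) := (mp_mul _ _ _).symm
  rw [h1]
  ext1 i j
  rw [tau, Matrix.mul_diagonal, Matrix.diagonal_mul]
  by_cases hij : Int.sign (lam i) + Int.sign (lam j) = 0
  · have h2 : (LaurentPolynomial.C (T (Int.sign (lam i))) : B[T;T⁻¹][T;T⁻¹]) *
        LaurentPolynomial.C (T (Int.sign (lam j))) = 1 := by
      rw [← map_mul, ← T_add, hij, T_zero, map_one]
    linear_combination (up (X.transpose * X) i j) * h2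
  · have h2 : up (X.transpose * X) i j = 0 := by
      show AddMonoidAlgebra.mapRingHom ℤ (LaurentPolynomial.C : B →+* B[T;T⁻¹])
        ((X.transpose * X) i j) = 0
      rw [h.ort i j hij, map_zero]
    rw [h2, mul_zero, zero_mul]

theorem SplitData.sum_sign [Nontrivial B] (h : SplitData g lam X Y) :
    ∑ i, Int.sign (lam i) = 0 := by
  have h1 := congrArg Matrix.det h.tau_ort
  have h2 : ((up X).transpose * up X).det = 1 := by
    rw [Matrix.det_mul, Matrix.det_transpose, det_mp_one _ h.hX1, one_mul]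
  rw [Matrix.det_mul, Matrix.det_mul, h2, mul_one, det_tau, ← map_mul, ← T_add,
    ← map_one (LaurentPolynomial.C : B[T;T⁻¹] →+* B[T;T⁻¹][T;T⁻¹])] at h1
  have h3 : (T (∑ i, Int.sign (lam i) + ∑ i, Int.sign (lam i)) : B[T;T⁻¹]) = 1 := by
    have h4 := congrArg (fun x : B[T;T⁻¹][T;T⁻¹] => x.coeff 0) h1
    simpa using h4
  have h4 : (T (∑ i, Int.sign (lam i) + ∑ i, Int.sign (lam i)) : B[T;T⁻¹]).coeff 0 =
      (T 0 : B[T;T⁻¹]).coeff 0 := by rw [h3, T_zero]
  rw [T_apply, T_apply, if_pos rfl] at h4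
  by_contra hne
  rw [if_neg (by omega)] at h4
  exact zero_ne_one h4

/-- the one-parameter group, on the first chart -/
def al (lam : Fin N → ℤ) (X : Matrix (Fin N) (Fin N) B[T;T⁻¹]) :
    Matrix (Fin N) (Fin N) B[T;T⁻¹][T;T⁻¹] :=
  up X * tau B (fun i => Int.sign (lam i)) * (up X).adjugate

theorem al_mul_inv (lam : Fin N → ℤ) (hX1 : X.det = 1) :
    al lam X * (up X * tau B (-fun i => Int.sign (lam i)) * (up X).adjugate) = 1 := by
  have h1 : (up X).det = 1 := det_mp_one _ hX1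
  calc al lam X * (up X * tau B (-fun i => Int.sign (lam i)) * (up X).adjugate) =
      up X * (tau B (fun i => Int.sign (lam i)) * ((up X).adjugate * up X) *
        tau B (-fun i => Int.sign (lam i))) * (up X).adjugate := by
        simp only [al, Matrix.mul_assoc]
    _ = 1 := by rw [adjugate_mul_self h1, Matrix.mul_one, tau_mul_neg, Matrix.mul_one,
                  self_mul_adjugate h1]

theorem det_al [Nontrivial B] (h : SplitData g lam X Y) {Z : Matrix (Fin N) (Fin N) B[T;T⁻¹]}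
    (hZ : Z.det = 1) : (al lam Z).det = 1 := by
  have h1 : (up Z).det = 1 := det_mp_one _ hZ
  rw [al, Matrix.det_mul, Matrix.det_mul, h1, det_adjugate_one h1, det_tau, h.sum_sign, T_zero,
    map_one, one_mul, one_mul]

theorem SplitData.al_ort (h : SplitData g lam X Y) :
    (al lam X).transpose * al lam X = 1 := by
  have h1 : (up X).det = 1 := det_mp_one _ h.hX1
  have h2 : (up X).adjugate.transpose * (up X).transpose = 1 := by
    rw [← Matrix.transpose_mul, self_mul_adjugate h1, Matrix.transpose_one]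
  calc (al lam X).transpose * al lam X =
      (up X).adjugate.transpose * (tau B (fun i => Int.sign (lam i)) *
        ((up X).transpose * up X) * tau B (fun i => Int.sign (lam i))) * (up X).adjugate := by
        simp only [al, Matrix.transpose_mul, tau_tr, Matrix.mul_assoc]
    _ = ((up X).adjugate.transpose * (up X).transpose) * (up X * (up X).adjugate) := by
        rw [h.tau_ort]; simp only [Matrix.mul_assoc]
    _ = 1 := by rw [h2, self_mul_adjugate h1, Matrix.one_mul]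

theorem SplitData.glue (h : SplitData g lam X Y) :
    up g.m * al lam Y = al lam X * up g.m := by
  have h1 : (up X).det = 1 := det_mp_one _ h.hX1
  have h2 : (up Y).det = 1 := det_mp_one _ h.hY1
  have h3 : up g.m * up Y = up X * mono lam := by
    have h4 := congrArg (mp (LaurentPolynomial.C : B →+* B[T;T⁻¹])) h.hg
    rw [mp_mul, mp_mul, mp_mono] at h4
    exact h4
  calc up g.m * al lam Y =
      (up g.m * up Y) * tau B (fun i => Int.sign (lam i)) * (up Y).adjugate := by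
        simp only [al, Matrix.mul_assoc]
    _ = up X * (mono lam * tau B (fun i => Int.sign (lam i))) * (up Y).adjugate := by
        rw [h3]; simp only [Matrix.mul_assoc]
    _ = up X * tau B (fun i => Int.sign (lam i)) * ((up X).adjugate * (up X * mono lam)) *
          (up Y).adjugate := by
        rw [← tau_comm_mono, ← Matrix.mul_assoc (up X).adjugate, adjugate_mul_self h1,
          Matrix.one_mul]
        simp only [Matrix.mul_assoc]
    _ = al lam X * up g.m := by
        rw [← h3]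
        simp only [al, Matrix.mul_assoc]
        rw [self_mul_adjugate h2, Matrix.mul_one]

end

end

end Vale.Agent.P286.So
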