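import Vale.Agent.P286.So.PresB

/-!
# The categories are not trivial
-/

namespace Vale.Agent.P286.So

open CategoryTheory TensorProduct

/-- The structure sheaf of `BSO_N`. -/
def strBG (N : ℕ) : TDMod (BG N) 0 where
  M X := X.A.R
  act X v a := v a
  act_add X v a a' := map_add v a a'
  add_act X v w a := rfl
  smul_act X a v b := rfl
  leibniz X v a b := by
    change v (a * b) = v a * b + a * v b
    rw [Derivation.leibniz, smul_eq_mul, smul_eq_mul, mul_comm b, add_comm]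
  lie_act X v w a := Derivation.commutator_apply (D1 := v) (D2 := w) a
  map φ := (BGHom.f φ).toRingHom.toAddMonoidHom
  map_smul φ a b := map_mul (BGHom.f φ) a b
  map_id X a := rfl
  map_comp φ ψ a := rfl
  map_act {X Y} φ w k c v h a := by
    have h1 : (algebraMap ℂ Y.A.R 0 * ((1 : (Y.A.R)ˣ)⁻¹ : (Y.A.R)ˣ) *
        w ((1 : (Y.A.R)ˣ) : Y.A.R)) * BGHom.f φ a = 0 := by
      rw [map_zero, zero_mul, zero_mul, zero_mul]
    exact (h a).trans ((sub_zero _).symm.trans (congrArg (_ - ·) h1.symm))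
  map_cen X φ h a := by
    obtain rfl : φ = 𝟙 X := h
    rfl

/-- The complex with zero differentials and with all terms equal to the structure sheaf. -/
def strCx (N : ℕ) : TCx (BG N) 0 where
  X _ := strBG N
  d _ _ := 0

theorem strCx_d (N : ℕ) (X : BGObj N) (i j : ℤ) (x : (strCx N).obj i X) :
    (strCx N).d X i j x = 0 := rfl

theorem cartesian_strCx (N : ℕ) : Cartesian (strCx N) := by
  intro X
  refine ⟨unitMCx X.A.R, fun i => inferInstanceAs (Module.Flat X.A.R X.A.R),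
    fun i => (LinearMap.id : X.A.R →ₗ[X.A.R] X.A.R), ?_, ?_, ?_⟩
  · intro i j x
    rfl
  · intro i j k _ _
    exact hIso_of_dzero (fun _ => rfl) (fun _ => rfl) (fun _ => rfl) Function.bijective_id
  · intro Y φ i j k _ _
    exact hIso_of_dzero (ExtS.map_zero_apply (BGHom.f φ).toRingHom)
      (ExtS.map_zero_apply (BGHom.f φ).toRingHom) (fun _ => rfl)
      (ExtS.lift_unit_bijective (BGHom.f φ).toRingHom _)

theorem not_tAcyclic_strCx (N : ℕ) : ¬ TAcyclic (strCx N) := by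
  intro h
  obtain ⟨y, hy⟩ := h (⟨⟨ℂ⟩⟩ : BGObj N) 0 (show (strCx N).obj 0 ⟨⟨ℂ⟩⟩ from (1 : ℂ)) rfl
  exact zero_ne_one (α := ℂ) hy

/-- The image of the structure sheaf of `BSO_N` on `Bun_{SO_N}(ℙ¹)`: a twisted `D`-module
for each twist `s`. -/
noncomputable def strBun (N : ℕ) (s : ℂ) : TCx (Bun N) s := (mapCx (Bfun N s)).obj (strCx N)

theorem cartesian_strBun (N : ℕ) (s : ℂ) : Cartesian (strBun N s) :=
  (presCart_B N s).cart _ (cartesian_strCx N)

/-- For each twist there is a cartesian complex on `Bun_{SO_N}(ℙ¹)` which is not acyclic. -/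
theorem not_tAcyclic_strBun (N : ℕ) (s : ℂ) : ¬ TAcyclic (strBun N s) := by
  intro h
  obtain ⟨y, hy⟩ := h (triv (⟨⟨ℂ⟩⟩ : BGObj N)) 0
    (show (strBun N s).obj 0 _ from (1 : Lo (triv (⟨⟨ℂ⟩⟩ : BGObj N)).th)) rfl
  have h1 : (0 : Lo (triv (⟨⟨ℂ⟩⟩ : BGObj N)).th) = 1 := hy
  have h2 := congrArg (BGHom.f (psi' (⟨⟨ℂ⟩⟩ : BGObj N))) h1
  rw [map_zero, map_one] at h2
  exact zero_ne_one (α := ℂ) h2

end Vale.Agent.P286.So
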